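import Vale.Agent.P207Z.SM.K.Ch

/-!
# P207, smooth case: `D` in the affine charts; its derivatives in one variable are polynomial
-/

set_option linter.all false

open Set Filter Topology Metric
open scoped ContDiff

noncomputable section

namespace Vale.Agent.P207Z.K

open Vale.Agent.P207.N3 Vale.Agent.P207.N4 Vale.Agent.P207.N4.H391
open Vale.Agent.P207.N4.Ten (ball_sub mem_ball0 dm_zero_of_ep)

section gen

variable {E F F' G : Type} [NormedAddCommGroup E] [NormedSpace ℝ E] [NormedAddCommGroup F]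
  [NormedSpace ℝ F] [NormedAddCommGroup F'] [NormedSpace ℝ F'] [NormedAddCommGroup G]
  [NormedSpace ℝ G]

/-- `T ↦ R T A` -/
def RR (R : F' →L[ℝ] F) (A : E →L[ℝ] E) : (E →L[ℝ] F') →L[ℝ] (E →L[ℝ] F) :=
  (ContinuousLinearMap.compL ℝ E F' F R).comp ((ContinuousLinearMap.compL ℝ E E F').flip A)

theorem RR_apply (R : F' →L[ℝ] F) (A : E →L[ℝ] E) (T : E →L[ℝ] F') :
    RR R A T = R ∘L T ∘L A := rfl

theorem norm_RR (R : F' →L[ℝ] F) (A : E →L[ℝ] E) : ‖RR R A‖ ≤ ‖R‖ * ‖A‖ := by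
  refine ContinuousLinearMap.opNorm_le_bound _ (by positivity) fun T => ?_
  rw [RR_apply]
  refine (ContinuousLinearMap.opNorm_comp_le _ _).trans ?_
  rw [mul_assoc, mul_comm ‖A‖]
  gcongr
  exact ContinuousLinearMap.opNorm_comp_le _ _

theorem d1_rel {Φ : E × G → F} {Ψ : E × G → F'} {p : E × G} {A : E →L[ℝ] E} {a : E} {q : G}
    {R : F' →L[ℝ] F} {c : E → F} (hΨ : ContDiffAt ℝ ∞ Ψ (A p.1 + a, q))
    (hc : DifferentiableAt ℝ c p.1)
    (h : ∀ᶠ v in 𝓝 p.1, Φ (v, p.2) = R (Ψ (A v + a, q)) + c v) :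
    d1 Φ p = RR R A (d1 Ψ (A p.1 + a, q)) + fderiv ℝ c p.1 := by
  have h1 := (has_d1 hΨ).comp p.1 (f := fun v => A v + a) (A.hasFDerivAt.add_const a)
  exact (((R.hasFDerivAt.comp p.1 h1).add hc.hasFDerivAt).congr_of_eventuallyEq h).fderiv

theorem ev_sl1 {P : E × G → Prop} {p : E × G} (h : ∀ᶠ q in 𝓝 p, P q) :
    ∀ᶠ v in 𝓝 p.1, P (v, p.2) :=
  (show Tendsto (fun a => (a, p.2)) (𝓝 p.1) (𝓝 p) from
    (continuous_id.prodMk continuous_const).tendsto p.1).eventually h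

theorem ev_sl2 {P : E × G → Prop} {p : E × G} (h : ∀ᶠ q in 𝓝 p, P q) :
    ∀ᶠ v in 𝓝 p.2, P (p.1, v) :=
  (show Tendsto (fun a => (p.1, a)) (𝓝 p.2) (𝓝 p) from
    (continuous_const.prodMk continuous_id).tendsto p.2).eventually h

end gen

variable [Dim]

variable {Γ X B : Type} [Group Γ] [MetricSpace X] [ProperSpace X] [MulAction Γ X]
  [IsIsometricSMul Γ X] [TopologicalSpace B] [CompactSpace B] [T2Space B] [MulAction Γ B]
  [ContinuousConstSMul Γ B] {L : Leaf Γ X B} {D : B → B → ℝ}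

namespace Hy

variable (H : Hy L D)

/-- the disc coordinate of a point given in an affine chart -/
def kap (x z : X) (q : E2) : E2 := L.inv z (H.pt x q)

/-- the domain of `kap` -/
def kd : Set ((X × X) × E2) := {q | H.pt q.1.1 q.2 ∈ L.e q.1.2 '' ball 0 3}

theorem kap_mem {x z : X} {q : E2} (h : H.pt x q ∈ L.e z '' ball 0 3) :
    H.kap x z q ∈ ball (0 : E2) 3 := L.inv_mem_ball le_rfl h

theorem e_kap {x z : X} {q : E2} (h : H.pt x q ∈ L.e z '' ball 0 3) :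
    L.e z (H.kap x z q) = H.pt x q := L.e_inv (image_mono ball_sub h)

theorem jc_kap : JC (fun p : X × X => H.kap p.1 p.2) H.kd := by
  have c1 : Continuous fun q : (X × X) × E2 => ((q.1.2, H.pt q.1.1 q.2) : X × B) :=
    (continuous_snd.comp continuous_fst).prodMk
      (H.pt_cont.comp (f := fun q : (X × X) × E2 => (q.1.1, q.2)) (by fun_prop))
  refine JC.of_local (L.e_open.preimage c1) fun p hp => ?_
  obtain ⟨T, g, hg, hT, h⟩ := H.pt_loc p.1.1 p.2 hp
  refine ⟨T, hT, hg.congr fun r hr => ?_⟩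
  rw [kap, (h r hr).2, L.inv_e (ball_sub (h r hr).1)]

theorem mem_ctr {ξ : B} {z : X} (h : L.ep z = ξ) : ξ ∈ L.e z '' ball (0 : E2) 3 :=
  ⟨0, mem_ball0, by rw [L.e_zero, h]⟩

/-- `D` in two affine charts -/
def G (x y : X) (p : E2 × E2) : ℝ := D (H.pt x p.1) (H.pt y p.2)

/-- the domain of `G` -/
def Om : Set ((X × X) × (E2 × E2)) := {q | H.pt q.1.1 q.2.1 ≠ H.pt q.1.2 q.2.2}

theorem isOpen_Om : IsOpen H.Om :=
  isOpen_ne_fun (H.pt_cont.comp (f := fun q : (X × X) × (E2 × E2) => (q.1.1, q.2.1)) (by fun_prop))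
    (H.pt_cont.comp (f := fun q : (X × X) × (E2 × E2) => (q.1.2, q.2.2)) (by fun_prop))

theorem jc_G : JC (fun p : X × X => H.G p.1 p.2) H.Om := by
  refine JC.of_local H.isOpen_Om fun p hp => ?_
  obtain ⟨z, hz⟩ := H824.exists_ep L (H.pt p.1.1 p.2.1)
  obtain ⟨w, hw⟩ := H824.exists_ep L (H.pt p.1.2 p.2.2)
  have k1 := (H.jc_kap.pullback (c := fun r : X × X => (r.1, z)) (by fun_prop)).comp
    (JC.id (E := E2 × E2) isOpen_univ).fst
  have k2 := (H.jc_kap.pullback (c := fun r : X × X => (r.2, w)) (by fun_prop)).comp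
    (JC.id (E := E2 × E2) isOpen_univ).snd
  have hT := (k1.isOpen.inter k2.isOpen).inter H.isOpen_Om
  have k3 := (k1.mono hT fun _ h => h.1.1).prodMk (k2.mono hT fun _ h => h.1.2)
  have k4 := (H.sm.f_jc.pullback (c := fun _ : X × X => (z, w)) continuous_const).comp' k3
    fun r hr => ⟨H.kap_mem hr.1.1.2, H.kap_mem hr.1.2.2, by
      simp only [H.e_kap hr.1.1.2, H.e_kap hr.1.2.2]; exact hr.2⟩
  refine ⟨_, ?_, k4.congr fun r hr => ?_⟩
  · exact ⟨⟨⟨mem_univ _, mem_ctr hz⟩, mem_univ _, mem_ctr hw⟩, hp⟩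
  simp only [ff, G, H.e_kap hr.1.1.2, H.e_kap hr.1.2.2]

theorem cd_G {x y : X} {p : E2 × E2} (h : H.pt x p.1 ≠ H.pt y p.2) : ContDiffAt ℝ ∞ (H.G x y) p :=
  H.jc_G.contDiffAt (p := ((x, y), p)) h

theorem ev_Om {x y : X} {p : E2 × E2} (h : H.pt x p.1 ≠ H.pt y p.2) :
    ∀ᶠ q in 𝓝 p, H.pt x q.1 ≠ H.pt y q.2 :=
  (isOpen_slice H.isOpen_Om (x, y)).mem_nhds h

/-- the transition between two affine charts -/
def tr (x y : X) (q : E2) : E2 := ch L D y (H.pt x q)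

theorem pt_tr {x y : X} {q : E2} (h : H.pt x q ≠ L.em y) : H.pt y (H.tr x y q) = H.pt x q :=
  H.pt_ch h

theorem tr_tr {x y : X} {q : E2} (h : H.pt x q ≠ L.em y) : H.tr y x (H.tr x y q) = q := by
  rw [tr, H.pt_tr h, H.ch_pt]

theorem ev_ne (x : X) {q : E2} {ζ : B} (h : H.pt x q ≠ ζ) : ∀ᶠ v in 𝓝 q, H.pt x v ≠ ζ :=
  (H.pt_cont' x).continuousAt.eventually_ne h

theorem cd_kap {x z : X} {q : E2} (h : H.pt x q ∈ L.e z '' ball 0 3) :
    ContDiffAt ℝ ∞ (H.kap x z) q := H.jc_kap.contDiffAt (p := ((x, z), q)) h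

theorem ev_kd {x z : X} {q : E2} (h : H.pt x q ∈ L.e z '' ball 0 3) :
    ∀ᶠ v in 𝓝 q, H.pt x v ∈ L.e z '' ball 0 3 :=
  (isOpen_slice H.jc_kap.isOpen (x, z)).mem_nhds h

include H in
theorem cd_ch {x z : X} {u : E2} (hu : u ∈ ball (0 : E2) 3) (h : L.e z u ≠ L.em x) :
    ContDiffAt ℝ ∞ (fun u => ch L D x (L.e z u)) u :=
  H.jc_ch.contDiffAt (p := ((x, z), u)) ⟨hu, h⟩

theorem cd_tr {x y : X} {q : E2} (h : H.pt x q ≠ L.em y) : ContDiffAt ℝ ∞ (H.tr x y) q := by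
  obtain ⟨z, hz⟩ := H824.exists_ep L (H.pt x q)
  have h1 := mem_ctr hz
  refine ((H.cd_ch (H.kap_mem h1) (by rwa [H.e_kap h1])).comp q
    (H.cd_kap h1)).congr_of_eventuallyEq ?_
  filter_upwards [H.ev_kd h1] with v hv
  simp only [Function.comp, tr, H.e_kap hv]

theorem has_tr {x y : X} {q : E2} (h : H.pt x q ≠ L.em y) :
    HasFDerivAt (H.tr x y) (fderiv ℝ (H.tr x y) q) q :=
  ((H.cd_tr h).differentiableAt (by simp)).hasFDerivAt

theorem ftr_ftr {x y : X} {q : E2} (h : H.pt x q ≠ L.em y) (v : E2) :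
    fderiv ℝ (H.tr y x) (H.tr x y q) (fderiv ℝ (H.tr x y) q v) = v := by
  have h1 := (H.has_tr (x := y) (y := x) (q := H.tr x y q)
    (by rw [H.pt_tr h]; exact H.pt_ne _ _)).comp q (H.has_tr h)
  have h2 := h1.unique ((hasFDerivAt_id q).congr_of_eventuallyEq
    ((H.ev_ne x h).mono fun v hv => H.tr_tr hv))
  exact congrArg (fun A : E2 →L[ℝ] E2 => A v) h2

theorem inj_ftr {x y : X} {q : E2} (h : H.pt x q ≠ L.em y) :
    Function.Injective (fderiv ℝ (H.tr x y) q) := fun v w e => by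
  rw [← H.ftr_ftr h v, e, H.ftr_ftr h]

include H in
theorem ch_cat {x : X} {η : B} (h : η ≠ L.em x) : ContinuousAt (ch L D x) η := by
  obtain ⟨z, hz⟩ := H824.exists_ep L η
  have h1 := mem_ctr hz
  have h2 : ContinuousAt (L.inv z) η := by
    obtain ⟨u, hu, rfl⟩ := h1
    have := (L.inv_tendsto (l := 𝓝 (L.e z u)) (tendsto_const_nhds (x := z)) tendsto_id hu).2
    rw [ContinuousAt, L.inv_e (ball_sub hu)]
    exact this
  have h3 := L.e_inv (image_mono ball_sub h1)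
  refine ((H.cd_ch (x := x) (L.inv_mem_ball le_rfl h1) (by rwa [h3])).continuousAt.comp h2).congr ?_
  filter_upwards [(H824.open_disc' L z le_rfl).mem_nhds h1] with v hv
  simp only [Function.comp, L.e_inv (image_mono ball_sub hv)]

/-- the first derivative is affine -/
theorem d1_aff {x y : X} {a : E2} (h : H.pt y a = L.em x) :
    ∃ (K : E2 ≃L[ℝ] (E2 →L[ℝ] ℝ)) (c : E2 →L[ℝ] ℝ), ∀ b, d1 (H.G y x) (a, b) = K b + c := by
  have h1 : H.pt y a ∈ L.e (L.flip x) '' ball 0 3 := mem_ctr (by rw [h, L.ep_of_flip])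
  have h0 : H.kap y (L.flip x) a = 0 := by rw [kap, h, ← e0_flip, L.inv_e (ball_sub mem_ball0)]
  have h2 := ((H.cd_kap h1).differentiableAt (by simp)).hasFDerivAt
  have h3 := ((H.cd_ch (x := y) (H.kap_mem h1) (by
    rw [H.e_kap h1]; exact H.pt_ne _ _)).differentiableAt (by simp)).hasFDerivAt.comp a h2
  have h4 := h3.unique ((hasFDerivAt_id a).congr_of_eventuallyEq
    ((H.ev_kd h1).mono fun v hv => by simp only [Function.comp, H.e_kap hv, H.ch_pt, id]))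
  obtain ⟨S, hS⟩ := inv_of_inj (A := fderiv ℝ (H.kap y (L.flip x)) a) fun v w e => by
    have e1 := congrArg (fun A : E2 →L[ℝ] E2 => A v) h4
    have e2 := congrArg (fun A : E2 →L[ℝ] E2 => A w) h4
    simp only [ContinuousLinearMap.comp_apply, ContinuousLinearMap.id_apply] at e1 e2
    rw [← e1, e, e2]
  refine ⟨fd.symm.trans (S.symm.arrowCongr (ContinuousLinearEquiv.refl ℝ ℝ)),
    gr L D x (L.ep x) ∘L S, fun b => ?_⟩
  have h5 := H.has_gr (H.pt_ne x b)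
  rw [← h0] at h5
  have h6 : d1 (H.G y x) (a, b) = _ := ((h5.comp a h2).congr_of_eventuallyEq
    ((H.ev_kd h1).mono fun v hv => by simp only [Function.comp, H.e_kap hv, G])).fderiv
  have h7 : gr L D x (H.pt x b) = fd.symm b + gr L D x (L.ep x) := by
    have := H.ch_pt x b
    rw [ch] at this
    conv_rhs => rw [← this]
    simp
  rw [h6, h7, ← hS]
  ext v
  simp

/-- the mixed derivative is invertible -/
theorem nd {y z : X} {p : E2 × E2} (h : H.pt y p.1 ≠ H.pt z p.2) :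
    (d2 (d1 (H.G y z)) p).IsInvertible := by
  obtain ⟨x, hx⟩ := exists_em L (H.pt y p.1)
  obtain ⟨K, c, hK⟩ := H.d1_aff hx.symm
  have h1 : H.pt z p.2 ≠ L.em x := by rw [hx]; exact h.symm
  have h2 : d2 (d1 (H.G y z)) p = _ :=
    ((((K : E2 →L[ℝ] E2 →L[ℝ] ℝ).hasFDerivAt.comp p.2 (H.has_tr h1)).add_const
      c).congr_of_eventuallyEq ((H.ev_ne z h1).mono fun v hv => by
        have := hK (H.tr z x v)
        simp only [d1, G, H.pt_tr hv] at this
        exact this)).fderiv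
  obtain ⟨S, hS⟩ := inv_of_inj (H.inj_ftr h1)
  rw [h2, ← hS]
  exact ⟨S.trans K, rfl⟩

/-! ### polynomial derivatives -/

/-- the domain of the normalised function -/
def O1 : Set (X × (E2 × E2)) := {q | H.pt (L.flip q.1) q.2.1 ≠ H.pt q.1 q.2.2}

theorem O1_l (x : X) (a : E2) : H.pt (L.flip x) a ≠ H.pt x 0 := by
  rw [H.pt_zero, ← em_flip]; exact H.pt_ne _ _

theorem O1_r (x : X) (b : E2) : H.pt (L.flip x) 0 ≠ H.pt x b := by
  rw [H.pt_zero, L.ep_of_flip]; exact (H.pt_ne _ _).symm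

/-- the normalised function -/
def nG (x : X) (p : E2 × E2) : ℝ := H.G (L.flip x) x p - H.G (L.flip x) x (p.1, 0)
  - H.G (L.flip x) x (0, p.2) + H.G (L.flip x) x (0, 0)

theorem jc_nG : JC H.nG H.O1 := by
  have h1 : JC (fun x => H.G (L.flip x) x) H.O1 :=
    H.jc_G.pullback (c := fun x => (L.flip x, x)) (L.flip_cont.prodMk continuous_id)
  have i := JC.id (Z := X) h1.isOpen
  have o := JC.const (E := E2 × E2) h1.isOpen (0 : E2)
  exact ((h1.sub (h1.comp' (i.fst.prodMk o) fun p _ => H.O1_l _ _)).sub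
    (h1.comp' (o.prodMk i.snd) fun p _ => H.O1_r _ _)).add
    (h1.comp' (o.prodMk o) fun p _ => H.O1_l _ _)

theorem nG_smul (g : Γ) {x : X} {p : E2 × E2} (h : (x, p) ∈ H.O1) : H.nG (g • x) p = H.nG x p := by
  simp only [nG, G, L.flip_smul, H.pt_smul]
  rw [H.smul g h, H.smul g (H.O1_l _ _), H.smul g (H.O1_r _ _), H.smul g (H.O1_l _ _)]
  ring

theorem O1_smul (g : Γ) {x : X} {p : E2 × E2} : (g • x, p) ∈ H.O1 ↔ (x, p) ∈ H.O1 := by
  simp only [O1, mem_setOf_eq, L.flip_smul, H.pt_smul, ne_eq, smul_left_cancel_iff]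

theorem fl_em {x y : X} (h : L.ep x = L.ep y) : L.em (L.flip x) = L.em (L.flip y) := by
  rw [em_flip, em_flip, h]

theorem fl_ep {x y : X} (h : L.em x = L.em y) : L.ep (L.flip x) = L.ep (L.flip y) := by
  rw [L.ep_of_flip, L.ep_of_flip, h]

theorem G_same {x y : X} (h : L.em x = L.em y) (h' : L.ep x = L.ep y) (p : E2 × E2) :
    H.G (L.flip y) y (lin L (L.flip x) (L.flip y) p.1, lin L x y p.2) = H.G (L.flip x) x p := by
  simp only [G, H.pt_same h h', H.pt_same (fl_em h') (fl_ep h)]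

theorem nG_same {x y : X} (h : L.em x = L.em y) (h' : L.ep x = L.ep y) (p : E2 × E2) :
    H.nG y (lin L (L.flip x) (L.flip y) p.1, lin L x y p.2) = H.nG x p := by
  simp only [nG, ← H.G_same h h', map_zero]

theorem O1_same {x y : X} (h : L.em x = L.em y) (h' : L.ep x = L.ep y) {p : E2 × E2} :
    (y, (lin L (L.flip x) (L.flip y) p.1, lin L x y p.2)) ∈ H.O1 ↔ (x, p) ∈ H.O1 := by
  simp only [O1, mem_setOf_eq, H.pt_same h h', H.pt_same (fl_em h') (fl_ep h)]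

include H in
theorem lin_fwd : ∃ M, 0 ≤ M ∧ ∀ (n : ℕ) x, ‖lin L x (L.φ (n * L.t1) x)‖ ≤ M ^ n := by
  have h1 : Continuous fun x => lin L x (L.φ L.t1 x) := by
    refine ContinuousLinearMap.adjoint.continuous.comp ?_
    exact H.sm.tau_jc.fderiv.continuousOn.comp_continuous
      (f := fun x : X => (((L.flip (L.φ L.t1 x), L.flip x), 0) : (X × X) × E2))
      (((L.flip_cont.comp (L.φ_cont' _)).prodMk L.flip_cont).prodMk continuous_const)
      fun x => dm_zero_of_ep (fl_ep (L.em_φ _ _))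
  obtain ⟨K, hK, hco⟩ := L.cocompact
  obtain ⟨M, hM⟩ := hK.exists_bound_of_continuousOn h1.continuousOn
  have h2 : ∀ x, ‖lin L x (L.φ L.t1 x)‖ ≤ M := fun x => by
    obtain ⟨g, hg⟩ := hco x
    have := hM _ hg
    rwa [L.φ_smul, lin_smul g (L.em_φ _ _).symm] at this
  refine ⟨M, (norm_nonneg _).trans (h2 L.nonempty.some), fun n => ?_⟩
  induction n with
  | zero => intro x; simp [L.φ_zero, lin_self, ContinuousLinearMap.norm_id_le]
  | succ n ih =>
    intro x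
    rw [Nat.cast_succ, add_mul, one_mul, L.φ_add, H.lin_trans (L.em_φ L.t1 x).symm
      (L.em_φ _ _).symm, pow_succ]
    exact (ContinuousLinearMap.opNorm_comp_le _ _).trans
      (mul_le_mul (ih _) (h2 x) (norm_nonneg _) ((norm_nonneg _).trans (ih x)))

/-- natural families -/
structure TF {F : Type} [NormedAddCommGroup F] [NormedSpace ℝ F] (Φ : X → E2 × E2 → F) : Prop where
  jc : JC Φ H.O1
  inv : ∀ (g : Γ) x p, (x, p) ∈ H.O1 → Φ (g • x) p = Φ x p
  fl : ∃ M, 0 ≤ M ∧ ∀ (n : ℕ) x, ∃ R : F →L[ℝ] F, ‖R‖ ≤ M ^ n ∧ ∀ p, (x, p) ∈ H.O1 →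
    Φ x p = R (Φ (L.φ (-(n * L.t1)) x) (lin L (L.flip x) (L.flip (L.φ (-(n * L.t1)) x)) p.1,
      lin L x (L.φ (-(n * L.t1)) x) p.2))

theorem tf_nG : H.TF H.nG :=
  ⟨H.jc_nG, fun g _ _ h => H.nG_smul g h, 1, zero_le_one, fun n x =>
    ⟨ContinuousLinearMap.id ℝ ℝ, by simp, fun p _ =>
      (H.nG_same (L.em_φ _ _).symm (L.ep_φ _ _).symm p).symm⟩⟩

variable {H} {F : Type} [NormedAddCommGroup F] [NormedSpace ℝ F] {Φ : X → E2 × E2 → F}

theorem TF.d1 (h : H.TF Φ) : H.TF fun x => d1 (Φ x) := by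
  have ev : ∀ {x p}, (x, p) ∈ H.O1 → ∀ᶠ q in 𝓝 p, (x, q) ∈ H.O1 := fun {x p} hp =>
    (isOpen_slice h.jc.isOpen x).mem_nhds hp
  refine ⟨jc_d1 h.jc, fun g x p hp => d1_congr ((ev hp).mono fun q hq => h.inv g x q hq), ?_⟩
  obtain ⟨M, hM, h1⟩ := h.fl
  obtain ⟨M', hM', h2⟩ := H.lin_fwd
  refine ⟨M * M', by positivity, fun n x => ?_⟩
  obtain ⟨R, hR, h3⟩ := h1 n x
  refine ⟨RR R (lin L (L.flip x) (L.flip (L.φ (-(n * L.t1)) x))), (norm_RR _ _).trans ?_,
    fun p hp => ?_⟩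
  · rw [mul_pow, L.flip_φ, neg_neg]
    exact mul_le_mul hR (h2 n _) (norm_nonneg _) (by positivity)
  · have h4 := h.jc.contDiffAt ((H.O1_same (L.em_φ (-(n * L.t1)) x).symm (L.ep_φ _ _).symm).2 hp)
    have := d1_rel (Φ := Φ x) (p := p) (a := 0) (R := R) (c := fun _ => 0)
      (by rw [add_zero]; exact h4) (differentiableAt_const _)
      ((ev_sl1 (ev hp)).mono fun v hv => by rw [add_zero, add_zero]; exact h3 _ hv)
    simpa using this

theorem TF.poly (h : H.TF Φ) (x : X) : Poly fun b => Φ x (0, b) := by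
  have j : JC (fun x b => Φ x (0, b)) univ := h.jc.comp'
    ((JC.const isOpen_univ (0 : E2)).prodMk (JC.id isOpen_univ)) fun p _ => H.O1_r _ _
  have cd : ∀ x, ContDiff ℝ ∞ fun b => Φ x (0, b) := fun x =>
    contDiff_iff_contDiffAt.2 fun b => j.contDiffAt (p := (x, b)) (mem_univ _)
  obtain ⟨M, hM, h1⟩ := h.fl
  obtain ⟨C, hC⟩ := lin_back (L := L)
  have hr : Real.exp (-L.χ * L.t1) < 1 :=
    Real.exp_lt_one_iff.2 (by nlinarith [L.χ_pos, L.t1_pos])
  set r := Real.exp (-L.χ * L.t1)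
  have hr0 : 0 < r := Real.exp_pos _
  obtain ⟨k, hk⟩ := (((tendsto_pow_atTop_nhds_zero_of_lt_one hr0.le hr).const_mul M).eventually
    (gt_mem_nhds (show M * 0 < 1 by simp))).exists
  obtain ⟨K, hK, hco⟩ := L.cocompact
  obtain ⟨C', hC'⟩ := j.bound (hK.prod (isCompact_closedBall (0 : E2) 1)) (subset_univ _) k
  have hb : ∀ y, ∀ b ∈ closedBall (0 : E2) 1,
      ‖iteratedFDeriv ℝ k (fun b => Φ y (0, b)) b‖ ≤ C' := fun y b hb => by
    obtain ⟨g, hg⟩ := hco y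
    have := hC' (g • y, b) ⟨hg, hb⟩
    rwa [show (fun b => Φ (g • y) (0, b)) = fun b => Φ y (0, b) from
      funext fun b => h.inv g y _ (H.O1_r _ _)] at this
  refine Poly.of_eq (cd x) (N := k) fun b => norm_le_zero_iff.1 ?_
  have t1 := (tendsto_pow_atTop_nhds_zero_of_lt_one (by positivity) hk).const_mul (C' * C ^ k)
  have t2 := (tendsto_pow_atTop_nhds_zero_of_lt_one hr0.le hr).const_mul (C * ‖b‖)
  rw [mul_zero] at t1 t2
  refine ge_of_tendsto t1 ?_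
  filter_upwards [t2.eventually (gt_mem_nhds one_pos), eventually_ge_atTop 1] with n hn hn1
  obtain ⟨R, hR, h2⟩ := h1 n x
  set y := L.φ (-(n * L.t1)) x
  have hP : ‖lin L x y‖ ≤ C * r ^ n := by
    have := hC x (n * L.t1) (le_mul_of_one_le_left L.t1_pos.le (by exact_mod_cast hn1))
    rwa [show -L.χ * (n * L.t1) = n * (-L.χ * L.t1) by ring, Real.exp_nat_mul] at this
  have e : (fun b => Φ x (0, b)) = R ∘ ((fun b => Φ y (0, b)) ∘ lin L x y) :=
    funext fun b => by simpa using h2 (0, b) (H.O1_r _ _)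
  rw [e, R.iteratedFDeriv_comp_left ((cd y).comp (lin L x y).contDiff).contDiffAt (le_inf' k),
    (lin L x y).iteratedFDeriv_comp_right (cd y) b (le_inf' k)]
  refine (R.norm_compContinuousMultilinearMap_le _).trans ?_
  have h3 := hb y (lin L x y b) (mem_closedBall_zero_iff.2
    (((lin L x y).le_of_opNorm_le hP b).trans (by linarith)))
  have h4 := (iteratedFDeriv ℝ k (fun b => Φ y (0, b)) (lin L x y b)).norm_compContinuousLinearMap_le
    fun _ => lin L x y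
  rw [Finset.prod_const, Finset.card_univ, Fintype.card_fin] at h4
  have hC0 := (norm_nonneg _).trans h3
  calc _ ≤ M ^ n * (C' * (C * r ^ n) ^ k) := by
        refine mul_le_mul hR (h4.trans ?_) (norm_nonneg _) (by positivity)
        gcongr
    _ = _ := by rw [mul_pow, mul_pow, ← pow_mul, ← pow_mul, mul_comm n k]; ring

variable (H)

/-- the second and third derivatives are polynomial -/
theorem poly23 {x y : X} {a : E2} (h : H.pt y a = L.em x) :
    Poly (fun b => d1 (d1 (H.G y x)) (a, b)) ∧ Poly fun b => d1 (d1 (d1 (H.G y x))) (a, b) := by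
  obtain ⟨z, z1, z2, -⟩ := L.exists_frame (L.em x) (L.em y) (h ▸ H.pt_ne y a) 0
  have z3 : L.em y = L.em (L.flip z) := by rw [em_flip, z2]
  set A := lin L y (L.flip z)
  set A' := lin L x z
  set b₁ := -A' (ch L D x (L.ep z))
  have p1 : ∀ v, H.pt y v = H.pt (L.flip z) (A v + -A a) := fun v => by
    rw [← H.pt_trans z3, L.ep_of_flip, z1, ← h, H.ch_pt, map_sub, sub_eq_add_neg]
  have p2 : ∀ v, H.pt x v = H.pt z (A' v + b₁) := fun v => by
    rw [← H.pt_trans z1.symm, map_sub, sub_eq_add_neg]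
  have step : ∀ {F : Type} [NormedAddCommGroup F] [NormedSpace ℝ F] {Φ : E2 × E2 → F}
      {Ψ : X → E2 × E2 → F}, H.TF Ψ → (∃ (R : F →L[ℝ] F) (c c' : E2 → F), ContDiff ℝ ∞ c ∧
        ∀ p : E2 × E2, H.pt y p.1 ≠ H.pt x p.2 →
          Φ p = R (Ψ z (A p.1 + -A a, A' p.2 + b₁)) + (c p.1 + c' p.2)) →
      (∃ (R : (E2 →L[ℝ] F) →L[ℝ] (E2 →L[ℝ] F)) (c c' : E2 → E2 →L[ℝ] F), ContDiff ℝ ∞ c ∧
        ∀ p : E2 × E2, H.pt y p.1 ≠ H.pt x p.2 →
          d1 Φ p = R (d1 (Ψ z) (A p.1 + -A a, A' p.2 + b₁)) + (c p.1 + c' p.2)) ∧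
      Poly fun b => d1 Φ (a, b) := by
    rintro F _ _ Φ Ψ hΨ ⟨R, c, c', hc, h1⟩
    have key : ∀ p : E2 × E2, H.pt y p.1 ≠ H.pt x p.2 → d1 Φ p =
        RR R A (d1 (Ψ z) (A p.1 + -A a, A' p.2 + b₁)) + (fderiv ℝ c p.1 + 0) := fun p hp => by
      rw [d1_rel (hΨ.jc.contDiffAt (p := (z, (A p.1 + -A a, A' p.2 + b₁))) (by
          rw [p1, p2] at hp; exact hp))
        ((hc.differentiable (by simp) p.1).add_const (c' p.2))
        ((ev_sl1 (H.ev_Om hp)).mono fun v hv => h1 _ hv), fderiv_add_const, add_zero]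
    refine ⟨⟨_, _, fun _ => 0, hc.fderiv_right (by simp), key⟩, ?_⟩
    have := (((hΨ.d1.poly z).aff A' b₁).clm (RR R A)).add (Poly.const (fderiv ℝ c a + 0))
    rwa [show (fun b => d1 Φ (a, b)) = _ from funext fun b => by
      rw [key (a, b) (h ▸ (H.pt_ne x b).symm), add_neg_cancel]]
  have c0 : ContDiff ℝ ∞ fun v => H.G (L.flip z) z (A v + -A a, 0) :=
    contDiff_iff_contDiffAt.2 fun v => (H.cd_G (H.O1_l _ _)).comp v (by fun_prop)
  have s1 := step (Φ := H.G y x) H.tf_nG ⟨ContinuousLinearMap.id ℝ ℝ, _,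
    fun b => H.G (L.flip z) z (0, A' b + b₁) - H.G (L.flip z) z (0, 0), c0, fun p _ => by
      simp only [nG, G, p1, p2, ContinuousLinearMap.id_apply]; ring⟩
  have s2 := step H.tf_nG.d1 s1.1
  exact ⟨s2.2, (step H.tf_nG.d1.d1 s2.1).2⟩

end Hy

end Vale.Agent.P207Z.K
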