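import Vale.Agent.P207.N3.H862.Inv

/-!
# P207, smooth case, Killing fields: polynomial maps, flat maps, derivatives in one variable
-/

set_option linter.all false

open Set Filter Topology Metric Asymptotics
open scoped ContDiff

noncomputable section

namespace Vale.Agent.P207Z.K

open Vale.Agent.P207.N3

variable {E F G H : Type} [NormedAddCommGroup E] [NormedSpace ℝ E] [NormedAddCommGroup F]
  [NormedSpace ℝ F] [NormedAddCommGroup G] [NormedSpace ℝ G] [NormedAddCommGroup H]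
  [NormedSpace ℝ H]

theorem le_inf' (k : ℕ) : (k : WithTop ℕ∞) ≤ ∞ := by exact_mod_cast le_top

theorem itf_succ (f : E → F) (k : ℕ) (y : E) : iteratedFDeriv ℝ (k + 1) f y = 0 ↔
    iteratedFDeriv ℝ k (fderiv ℝ f) y = 0 := by
  rw [← norm_eq_zero, ← norm_iteratedFDeriv_fderiv, norm_eq_zero]

theorem itf_zero (f : E → F) (y : E) : iteratedFDeriv ℝ 0 f y = 0 ↔ f y = 0 := by
  rw [← norm_eq_zero, norm_iteratedFDeriv_zero, norm_eq_zero]

theorem itf_comp_clm {f : E → F} (g : G →L[ℝ] E) {x : G} (hf : ContDiffAt ℝ ∞ f (g x)) (k : ℕ) :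
    iteratedFDeriv ℝ k (f ∘ g) x
      = (iteratedFDeriv ℝ k f (g x)).compContinuousLinearMap fun _ => g := by
  obtain ⟨u, hu, h1⟩ := (hf.of_le (le_inf' k)).contDiffOn le_rfl (by simp)
  obtain ⟨s, hsu, hs, hx⟩ := _root_.mem_nhds_iff.1 hu
  have h2 := g.iteratedFDerivWithin_comp_right (h1.mono hsu) hs.uniqueDiffOn
    (hs.preimage g.continuous).uniqueDiffOn hx le_rfl
  rwa [iteratedFDerivWithin_of_isOpen k (hs.preimage g.continuous) hx,
    iteratedFDerivWithin_of_isOpen k hs hx] at h2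

/-! ### polynomial maps -/

/-- polynomial maps -/
def Poly (f : E → F) : Prop :=
  ContDiff ℝ ∞ f ∧ ∃ N : ℕ, ∀ n, N ≤ n → ∀ y, iteratedFDeriv ℝ n f y = 0

theorem Poly.of_eq {f : E → F} (hf : ContDiff ℝ ∞ f) {N : ℕ}
    (h : ∀ y, iteratedFDeriv ℝ N f y = 0) : Poly f := by
  refine ⟨hf, N, fun n hn => ?_⟩
  induction n, hn using Nat.le_induction with
  | base => exact h
  | succ n _ ih =>
    intro y
    have e : iteratedFDeriv ℝ n f = fun _ => 0 := funext ih
    rw [← norm_eq_zero, ← norm_fderiv_iteratedFDeriv, e, fderiv_fun_const]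
    exact ContinuousLinearMap.opNorm_zero

theorem Poly.const (c : F) : Poly fun _ : E => c :=
  Poly.of_eq contDiff_const (N := 1) fun y => by
    rw [itf_succ, itf_zero]; simp

theorem Poly.lin (L : E →L[ℝ] F) : Poly fun y => L y :=
  Poly.of_eq L.contDiff (N := 2) fun y => by
    have e : fderiv ℝ (fun y => L y) = fun _ => L := funext fun _ => L.fderiv
    rw [itf_succ, e, itf_succ, itf_zero]; simp

theorem Poly.bilin (B : F →L[ℝ] G →L[ℝ] H) {f : E → F} {g : E → G} (hf : Poly f) (hg : Poly g) :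
    Poly fun y => B (f y) (g y) := by
  obtain ⟨h1, N, hN⟩ := hf
  obtain ⟨h2, M, hM⟩ := hg
  refine Poly.of_eq ((B.contDiff.comp h1).clm_apply h2) (N := N + M) fun y => ?_
  have h3 := B.norm_iteratedFDeriv_le_of_bilinear h1 h2 y (le_inf' (N + M))
  rw [Finset.sum_eq_zero, mul_zero] at h3
  · exact norm_le_zero_iff.1 h3
  · intro i _
    by_cases hi : N ≤ i
    · rw [hN i hi]; simp
    · rw [hM (N + M - i) (by omega)]; simp

theorem Poly.clm (L : F →L[ℝ] G) {f : E → F} (hf : Poly f) : Poly fun y => L (f y) := by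
  have := Poly.bilin (ContinuousLinearMap.id ℝ (F →L[ℝ] G)) (Poly.const L) hf
  simpa using this

theorem Poly.add {f g : E → F} (hf : Poly f) (hg : Poly g) : Poly fun y => f y + g y := by
  obtain ⟨h1, N, hN⟩ := hf
  obtain ⟨h2, M, hM⟩ := hg
  refine Poly.of_eq (h1.add h2) (N := N + M) fun y => ?_
  have := iteratedFDeriv_add_apply (𝕜 := ℝ) (i := N + M) (x := y)
    (h1.contDiffAt.of_le (le_inf' _)) (h2.contDiffAt.of_le (le_inf' _))
  rw [hN _ (by omega), hM _ (by omega), add_zero] at this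
  exact this

theorem Poly.neg {f : E → F} (hf : Poly f) : Poly fun y => -f y := by
  simpa using hf.clm (-ContinuousLinearMap.id ℝ F)

theorem Poly.sub {f g : E → F} (hf : Poly f) (hg : Poly g) : Poly fun y => f y - g y := by
  simpa [sub_eq_add_neg] using hf.add hg.neg

theorem Poly.fderiv {f : E → F} (hf : Poly f) : Poly (fderiv ℝ f) := by
  obtain ⟨h1, N, hN⟩ := hf
  exact Poly.of_eq (h1.fderiv_right (by simp)) (N := N) fun y =>
    (itf_succ f N y).1 (hN _ (by omega) y)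

theorem Poly.app {A : E → F →L[ℝ] G} {f : E → F} (hA : Poly A) (hf : Poly f) :
    Poly fun y => A y (f y) := by
  simpa using Poly.bilin (ContinuousLinearMap.id ℝ (F →L[ℝ] G)) hA hf

theorem Poly.aff {f : E → F} (hf : Poly f) (A : G →L[ℝ] E) (c : E) :
    Poly fun y => f (A y + c) := by
  obtain ⟨h1, N, hN⟩ := hf
  have h2 : ContDiff ℝ ∞ fun z => f (z + c) := h1.comp (contDiff_id.add contDiff_const)
  refine Poly.of_eq (h2.comp A.contDiff) (N := N) fun y => ?_
  have h3 := A.iteratedFDeriv_comp_right h2 y (le_inf' N)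
  rw [iteratedFDeriv_comp_add_right, hN N le_rfl] at h3
  refine h3.trans ?_
  ext v
  simp

theorem Poly.eq_zero {f : E → F} (hf : Poly f) {y₀ : E}
    (h : ∀ n, iteratedFDeriv ℝ n f y₀ = 0) (y : E) : f y = 0 := by
  obtain ⟨h1, N, hN⟩ := hf
  have key : ∀ j, j ≤ N → ∀ y, iteratedFDeriv ℝ (N - j) f y = 0 := by
    intro j
    induction j with
    | zero => exact fun _ => hN N le_rfl
    | succ j ih =>
      intro hj y
      have h2 : Differentiable ℝ (iteratedFDeriv ℝ (N - (j + 1)) f) :=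
        h1.differentiable_iteratedFDeriv (WithTop.coe_lt_coe.2 (ENat.coe_lt_top _))
      have h3 : ∀ y, _root_.fderiv ℝ (iteratedFDeriv ℝ (N - (j + 1)) f) y = 0 := fun y => by
        refine ContinuousLinearMap.opNorm_zero_iff _ |>.1 ?_
        rw [norm_fderiv_iteratedFDeriv, norm_eq_zero, show N - (j + 1) + 1 = N - j by omega]
        exact ih (by omega) y
      rw [is_const_of_fderiv_eq_zero h2 h3 y y₀, h]
  have := key N le_rfl y
  rwa [Nat.sub_self, itf_zero] at this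

/-! ### flat maps -/

/-- `Φ` is small of every order in `ρ` near `w` -/
def Flat {W : Type} [TopologicalSpace W] (ρ : W → ℝ) (Φ : W → F) (w : W) : Prop :=
  ∀ N : ℕ, Φ =O[𝓝 w] fun p => ρ p ^ N

theorem Flat.fderiv {ρ : E → ℝ} {Φ : E → F} {w : E} (h : Flat ρ Φ w) (hΦ : ContDiffAt ℝ ∞ Φ w)
    (h0 : ∀ u, 0 ≤ ρ u) (hw : ρ w = 0) (hl : ∀ u v, ρ v ≤ ρ u + ‖v - u‖) :
    Flat ρ (fderiv ℝ Φ) w := by
  have key : ∀ N : ℕ, (_root_.fderiv ℝ Φ) =O[𝓝 w] fun p => ρ p ^ (N + 1) := by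
    intro N
    obtain ⟨C, hC0, hC⟩ := (h (2 * (N + 1))).exists_pos
    have h1 : ContDiffAt ℝ 1 (_root_.fderiv ℝ Φ) w := hΦ.fderiv_right (le_inf' 2)
    obtain ⟨M, t, ht, hM⟩ := h1.exists_lipschitzOnWith
    have h2 : ∀ᶠ v in 𝓝 w, DifferentiableAt ℝ Φ v :=
      ((hΦ.of_le (le_inf' 1)).eventually (by simp)).mono fun v hv =>
        hv.differentiableAt (by simp)
    obtain ⟨r, hr, hb⟩ := Metric.eventually_nhds_iff_ball.1
      ((hC.bound.and h2).and (show ∀ᶠ v in 𝓝 w, v ∈ t from ht))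
    refine IsBigO.of_bound (2 * C * 2 ^ (2 * (N + 1)) + M) ?_
    filter_upwards [ball_mem_nhds w (show 0 < min (r / 2) 1 by positivity)] with u hu
    have hu1 : ‖u - w‖ < r / 2 := (mem_ball_iff_norm.1 hu).trans_le (min_le_left _ _)
    have hu2 : ‖u - w‖ < 1 := (mem_ball_iff_norm.1 hu).trans_le (min_le_right _ _)
    have hρ : ρ u ≤ ‖u - w‖ := by have := hl w u; rwa [hw, zero_add] at this
    have est : ∀ s, 0 < s → s ≤ r / 2 → ‖_root_.fderiv ℝ Φ u‖ ≤
        2 * (C * (ρ u + s) ^ (2 * (N + 1))) / s + M * s := by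
      intro s hs hsr
      have hsub : ∀ v ∈ closedBall u s, v ∈ ball w r := fun v hv => by
        have := mem_closedBall_iff_norm.1 hv
        have h3 := norm_add_le (v - u) (u - w)
        rw [sub_add_sub_cancel] at h3
        exact mem_ball_iff_norm.2 (by linarith)
      refine interp_one hs M.2 (fun v hv => ?_) (fun v hv => (hb v (hsub v hv)).1.2.hasFDerivAt)
        fun v hv => ?_
      · refine (hb v (hsub v hv)).1.1.trans ?_
        rw [Real.norm_of_nonneg (pow_nonneg (h0 v) _)]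
        have h3 : ρ v ≤ ρ u + s := (hl u v).trans (by linarith [mem_closedBall_iff_norm.1 hv])
        exact mul_le_mul_of_nonneg_left (pow_le_pow_left₀ (h0 v) h3 _) hC0.le
      · exact hM.norm_sub_le (hb v (hsub v hv)).2
          (hb u (hsub u (mem_closedBall_self hs.le))).2
    rw [Real.norm_of_nonneg (pow_nonneg (h0 u) _)]
    rcases (h0 u).eq_or_lt with hz | hp
    · rw [← hz, zero_pow (Nat.succ_ne_zero N), mul_zero]
      have h4 : Tendsto (fun s : ℝ => 2 * C * s ^ (2 * N + 1) + M * s) (𝓝[>] 0) (𝓝 0) := by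
        have : Continuous fun s : ℝ => 2 * C * s ^ (2 * N + 1) + M * s := by fun_prop
        simpa using (this.tendsto 0).mono_left nhdsWithin_le_nhds
      refine ge_of_tendsto h4 ?_
      filter_upwards [Ioo_mem_nhdsGT (show (0 : ℝ) < r / 2 by positivity)] with s hs
      refine (est s hs.1 hs.2.le).trans_eq ?_
      rw [← hz, zero_add]
      have := hs.1.ne'
      field_simp
      ring
    · have h5 : ρ u ^ (N + 1) ≤ ρ u := by
        rw [pow_succ]
        exact mul_le_of_le_one_left hp.le (pow_le_one₀ hp.le (by linarith))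
      have h6 : 0 < ρ u ^ (N + 1) := pow_pos hp _
      refine (est _ h6 (by linarith)).trans ?_
      have h7 : (ρ u + ρ u ^ (N + 1)) ^ (2 * (N + 1)) ≤ (2 * ρ u) ^ (2 * (N + 1)) :=
        pow_le_pow_left₀ (by positivity) (by linarith) _
      have h8 : 2 * (C * (ρ u + ρ u ^ (N + 1)) ^ (2 * (N + 1))) / ρ u ^ (N + 1)
          ≤ 2 * C * 2 ^ (2 * (N + 1)) * ρ u ^ (N + 1) := by
        rw [div_le_iff₀ h6]
        calc 2 * (C * (ρ u + ρ u ^ (N + 1)) ^ (2 * (N + 1)))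
            ≤ 2 * (C * (2 * ρ u) ^ (2 * (N + 1))) := by gcongr
          _ = _ := by ring
      nlinarith
  intro N
  refine (key N).trans (IsBigO.of_bound 1 ?_)
  filter_upwards [ball_mem_nhds w one_pos] with u hu
  have hρ : ρ u ≤ 1 := by
    have := hl w u
    rw [hw, zero_add] at this
    exact this.trans (mem_ball_iff_norm.1 hu).le
  rw [Real.norm_of_nonneg (pow_nonneg (h0 u) _), Real.norm_of_nonneg (pow_nonneg (h0 u) _),
    one_mul, pow_succ]
  exact mul_le_of_le_one_right (pow_nonneg (h0 u) _) hρ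

theorem Flat.itf {ρ : E → ℝ} {w : E} (h0 : ∀ u, 0 ≤ ρ u) (hw : ρ w = 0)
    (hl : ∀ u v, ρ v ≤ ρ u + ‖v - u‖) (k : ℕ) : ∀ {F : Type} [NormedAddCommGroup F]
    [NormedSpace ℝ F] {Φ : E → F}, Flat ρ Φ w → ContDiffAt ℝ ∞ Φ w →
    Flat ρ (iteratedFDeriv ℝ k Φ) w := by
  induction k with
  | zero =>
    intro F _ _ Φ h _ N
    refine IsBigO.of_norm_left ?_
    simpa only [norm_iteratedFDeriv_zero] using (h N).norm_left
  | succ k ih =>
    intro F _ _ Φ h hΦ N
    refine IsBigO.of_norm_left ?_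
    simpa only [norm_iteratedFDeriv_fderiv] using
      (ih (h.fderiv hΦ h0 hw hl) (hΦ.fderiv_right (by simp)) N).norm_left

theorem Flat.zero {W : Type} [TopologicalSpace W] {ρ : W → ℝ} {Φ : W → F} {w : W}
    (h : Flat ρ Φ w) (hw : ρ w = 0) : Φ w = 0 := by
  obtain ⟨C, hC⟩ := (h 1).bound
  have := hC.self_of_nhds
  simpa [hw] using this

theorem nsub_l (y : E) (u v : E) : ‖v - y‖ ≤ ‖u - y‖ + ‖v - u‖ := by
  have h3 := norm_add_le (u - y) (v - u)
  rwa [add_comm (u - y), sub_add_sub_cancel] at h3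

theorem nsnd_l (u v : E × F) : ‖v.2‖ ≤ ‖u.2‖ + ‖v - u‖ := by
  have h3 := norm_add_le u.2 (v - u).2
  rw [Prod.snd_sub, add_sub_cancel] at h3
  exact h3.trans (by gcongr; exact norm_snd_le (v - u))

theorem Poly.eq_zero_of_flat {f : E → F} (hf : Poly f) {y₀ : E}
    (h : Flat (fun y => ‖y - y₀‖) f y₀) (y : E) : f y = 0 :=
  hf.eq_zero (fun n => (Flat.itf (fun _ => norm_nonneg _) (by simp) (nsub_l y₀) n h
    hf.1.contDiffAt).zero (by simp)) y

/-- Taylor: a family of maps all of whose derivatives vanish at `0` -/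
theorem flat_of_jc {Z : Type} [TopologicalSpace Z] {S : Set (Z × E)} {z₀ : Z}
    (h0 : (z₀, (0 : E)) ∈ S) (N : ℕ) : ∀ {F : Type} [NormedAddCommGroup F] [NormedSpace ℝ F]
    {f : Z → E → F}, JC f S → (∀ᶠ z in 𝓝 z₀, ∀ k, iteratedFDeriv ℝ k (f z) 0 = 0) →
    (fun p : Z × E => f p.1 p.2) =O[𝓝 (z₀, 0)] fun p => ‖p.2‖ ^ N := by
  induction N with
  | zero =>
    intro F _ _ f hf _
    simpa using (hf.continuousOn.continuousAt (hf.isOpen.mem_nhds h0)).tendsto.isBigO_one ℝ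
  | succ N ih =>
    intro F _ _ f hf hz
    obtain ⟨C, hC0, hC⟩ := (ih hf.fderiv
      (hz.mono fun z h k => (itf_succ _ k 0).1 (h _))).exists_pos
    have h1 := hC.bound.and (show ∀ᶠ p in 𝓝 (z₀, (0 : E)), p ∈ S from hf.isOpen.mem_nhds h0)
    rw [nhds_prod_eq] at h1
    obtain ⟨P1, hP1, P2, hP2, hP⟩ := eventually_prod_iff.1 h1
    obtain ⟨r, hr, hb⟩ := Metric.eventually_nhds_iff_ball.1 hP2
    refine IsBigO.of_bound C ?_
    rw [nhds_prod_eq]
    filter_upwards [prod_mem_prod (hP1.and hz) (ball_mem_nhds (0 : E) hr)] with p hp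
    have hs : ∀ v ∈ closedBall (0 : E) ‖p.2‖, v ∈ ball (0 : E) r := fun v hv =>
      mem_ball_zero_iff.2 ((mem_closedBall_zero_iff.1 hv).trans_lt (mem_ball_zero_iff.1 hp.2))
    have h2 := (convex_closedBall (0 : E) ‖p.2‖).norm_image_sub_le_of_norm_fderiv_le
      (𝕜 := ℝ) (f := f p.1) (C := C * ‖p.2‖ ^ N)
      (fun v hv => hf.differentiableAt (p := (p.1, v)) (hP hp.1.1 (hb v (hs v hv))).2)
      (fun v hv => (hP hp.1.1 (hb v (hs v hv))).1.trans (by
        rw [Real.norm_of_nonneg (by positivity)]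
        have := mem_closedBall_zero_iff.1 hv
        gcongr))
      (mem_closedBall_self (norm_nonneg _)) (mem_closedBall_zero_iff.2 le_rfl)
    rw [(itf_zero _ _).1 (hp.1.2 0), sub_zero, sub_zero] at h2
    rw [Real.norm_of_nonneg (by positivity), pow_succ, ← mul_assoc]
    exact h2

/-! ### derivatives in one of two variables -/

/-- derivative in the first variable -/
def d1 (Φ : E × G → F) (p : E × G) : E →L[ℝ] F := fderiv ℝ (fun a => Φ (a, p.2)) p.1

/-- derivative in the second variable -/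
def d2 (Φ : E × G → F) (p : E × G) : G →L[ℝ] F := fderiv ℝ (fun b => Φ (p.1, b)) p.2

variable {Φ : E × G → F} {p : E × G}

theorem d1_eq (h : DifferentiableAt ℝ Φ p) :
    d1 Φ p = (fderiv ℝ Φ p).comp (ContinuousLinearMap.inl ℝ E G) :=
  (h.hasFDerivAt.comp p.1 (hasFDerivAt_prodMk_left p.1 p.2)).fderiv

theorem d2_eq (h : DifferentiableAt ℝ Φ p) :
    d2 Φ p = (fderiv ℝ Φ p).comp (ContinuousLinearMap.inr ℝ E G) :=
  (h.hasFDerivAt.comp p.2 (hasFDerivAt_prodMk_right p.1 p.2)).fderiv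

theorem ev_diff {f : E → F} {x : E} (h : ContDiffAt ℝ ∞ f x) :
    ∀ᶠ v in 𝓝 x, DifferentiableAt ℝ f v :=
  ((h.of_le (le_inf' 1)).eventually (by simp)).mono fun v hv => hv.differentiableAt (by simp)

theorem d1_ev (h : ContDiffAt ℝ ∞ Φ p) :
    d1 Φ =ᶠ[𝓝 p] fun q => (fderiv ℝ Φ q).comp (ContinuousLinearMap.inl ℝ E G) :=
  (ev_diff h).mono fun _ hq => d1_eq hq

theorem d2_ev (h : ContDiffAt ℝ ∞ Φ p) :
    d2 Φ =ᶠ[𝓝 p] fun q => (fderiv ℝ Φ q).comp (ContinuousLinearMap.inr ℝ E G) :=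
  (ev_diff h).mono fun _ hq => d2_eq hq

theorem cd_d1 (h : ContDiffAt ℝ ∞ Φ p) : ContDiffAt ℝ ∞ (d1 Φ) p :=
  ((h.fderiv_right (m := ∞) (by simp)).clm_comp contDiffAt_const).congr_of_eventuallyEq (d1_ev h)

theorem cd_d2 (h : ContDiffAt ℝ ∞ Φ p) : ContDiffAt ℝ ∞ (d2 Φ) p :=
  ((h.fderiv_right (m := ∞) (by simp)).clm_comp contDiffAt_const).congr_of_eventuallyEq (d2_ev h)

theorem cd_sl1 (h : ContDiffAt ℝ ∞ Φ p) : ContDiffAt ℝ ∞ (fun a => Φ (a, p.2)) p.1 :=
  ContDiffAt.comp (g := Φ) (f := fun a => (a, p.2)) p.1 h (by fun_prop)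

theorem cd_sl2 (h : ContDiffAt ℝ ∞ Φ p) : ContDiffAt ℝ ∞ (fun b => Φ (p.1, b)) p.2 :=
  ContDiffAt.comp (g := Φ) (f := fun b => (p.1, b)) p.2 h (by fun_prop)

theorem has_d1 (h : ContDiffAt ℝ ∞ Φ p) : HasFDerivAt (fun a => Φ (a, p.2)) (d1 Φ p) p.1 :=
  ((cd_sl1 h).differentiableAt (by simp)).hasFDerivAt

theorem has_d2 (h : ContDiffAt ℝ ∞ Φ p) : HasFDerivAt (fun b => Φ (p.1, b)) (d2 Φ p) p.2 :=
  ((cd_sl2 h).differentiableAt (by simp)).hasFDerivAt

theorem d1_congr {Ψ : E × G → F} (h : Φ =ᶠ[𝓝 p] Ψ) : d1 Φ p = d1 Ψ p :=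
  Filter.EventuallyEq.fderiv_eq
    ((show Tendsto (fun a => (a, p.2)) (𝓝 p.1) (𝓝 p) from
      (continuous_id.prodMk continuous_const).tendsto p.1).eventually h)

theorem d1_congr' {Ψ : E × G → F} (h : Φ =ᶠ[𝓝 p] Ψ) : d1 Φ =ᶠ[𝓝 p] d1 Ψ :=
  h.eventuallyEq_nhds.mono fun _ hq => d1_congr hq

/-- the two derivatives commute -/
theorem d1_d2 (h : ContDiffAt ℝ ∞ Φ p) (w : G) :
    d1 (fun q => d2 Φ q w) p = d2 (d1 Φ) p w := by
  have h1 : ContDiffAt ℝ ∞ (fderiv ℝ Φ) p := h.fderiv_right (by simp)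
  have h2 := (h1.differentiableAt (by simp)).hasFDerivAt
  have hs : IsSymmSndFDerivAt ℝ Φ p := h.isSymmSndFDerivAt (by
    simp only [minSmoothness_of_isRCLikeNormedField]; exact le_inf' 2)
  have e1 : (fun q => d2 Φ q w) =ᶠ[𝓝 p] fun q => fderiv ℝ Φ q (0, w) :=
    (d2_ev h).mono fun q hq => by simp [hq]
  have e2 : HasFDerivAt (fun q => fderiv ℝ Φ q (0, w))
      ((fderiv ℝ (fderiv ℝ Φ) p).flip (0, w)) p := by
    simpa using h2.clm_apply (hasFDerivAt_const ((0, w) : E × G) p)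
  have e3 : HasFDerivAt (d1 Φ) (((ContinuousLinearMap.compL ℝ E (E × G) F).flip
      (ContinuousLinearMap.inl ℝ E G)).comp (fderiv ℝ (fderiv ℝ Φ) p)) p :=
    (((ContinuousLinearMap.compL ℝ E (E × G) F).flip
      (ContinuousLinearMap.inl ℝ E G)).hasFDerivAt.comp p h2).congr_of_eventuallyEq (d1_ev h)
  rw [d1_congr e1, d1_eq e2.differentiableAt, e2.fderiv, d2_eq e3.differentiableAt, e3.fderiv]
  ext v
  simpa using hs (v, 0) (0, w)

theorem Flat.d1 {a : E} (h : Flat (fun p : E × G => ‖p.2‖) Φ (a, 0))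
    (hΦ : ContDiffAt ℝ ∞ Φ (a, 0)) : Flat (fun p : E × G => ‖p.2‖) (d1 Φ) (a, 0) := by
  intro N
  have h1 := h.fderiv hΦ (fun _ => norm_nonneg _) (by simp) nsnd_l N
  refine (IsBigO.of_bound ‖ContinuousLinearMap.inl ℝ E G‖ ?_).trans h1
  filter_upwards [d1_ev hΦ] with q hq
  rw [hq, mul_comm]
  exact ContinuousLinearMap.opNorm_comp_le _ _

theorem jc_d1 {Z : Type} [TopologicalSpace Z] {f : Z → E × G → F} {S : Set (Z × (E × G))}
    (h : JC f S) : JC (fun z => d1 (f z)) S :=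
  (h.fderiv.clm_comp (JC.const h.isOpen (ContinuousLinearMap.inl ℝ E G))).congr fun _ hp =>
    d1_eq (h.differentiableAt hp)

end Vale.Agent.P207Z.K
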