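import Vale.Agent.P207Z.SM.K.Cal
import Vale.Agent.P207.N4.H391.SmB
import Vale.Agent.P207.N4.H662.Bas
import Vale.Agent.P207.N4.H824.Shr

/-!
# P207, smooth case: the affine charts of the leaves, given by the derivative of `D`
-/

set_option linter.all false

open Set Filter Topology Metric
open scoped ContDiff

noncomputable section

namespace Vale.Agent.P207Z.K

open Vale.Agent.P207.N3 Vale.Agent.P207.N4 Vale.Agent.P207.N4.H391
open Vale.Agent.P207.N4.Ten (ball_sub mem_ball0 mem_cball0 tau_eq mem_dm tau_mem e_tau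
  tau_symm_mem tau_tau_symm dm_zero_of_ep tau_zero_of_ep isOpen_dm dm_trans tau_trans
  fderiv_tau_self fderiv_tau_smul)
open InnerProductSpace (toDual)

variable [Dim]

variable {Γ X B : Type} [Group Γ] [MetricSpace X] [ProperSpace X] [MulAction Γ X]
  [IsIsometricSMul Γ X] [TopologicalSpace B] [CompactSpace B] [T2Space B] [MulAction Γ B]
  [ContinuousConstSMul Γ B]

/-- the smooth boundary -/
structure Hy (L : Leaf Γ X B) (D : B → B → ℝ) : Prop where
  sm : SmB L D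
  hD : ∀ x, D (L.em x) (L.ep x) = L.lv x + L.lp x

variable (L : Leaf Γ X B) (D : B → B → ℝ)

theorem em_flip (x : X) : L.em (L.flip x) = L.ep x := (L.ep_flip x).symm

theorem exists_em (ξ : B) : ∃ x, L.em x = ξ := by
  obtain ⟨x, hx⟩ := H824.exists_ep L ξ
  exact ⟨L.flip x, by rw [em_flip, hx]⟩

/-- the cocycle of the levels -/
def cg (g : Γ) (ξ : B) : ℝ :=
  L.lv (g • (exists_em L ξ).choose) - L.lv (exists_em L ξ).choose

theorem cg_eq (g : Γ) (x : X) : cg L g (L.em x) = L.lv (g • x) - L.lv x := by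
  have := L.lv_smul g _ x (exists_em L (L.em x)).choose_spec
  unfold cg
  linarith

/-- the derivative of `D` in the first variable, at `em x` -/
def gr (x : X) (η : B) : E2 →L[ℝ] ℝ := fderiv ℝ (fun u => D (L.e (L.flip x) u) η) 0

/-- the vector of a linear form -/
def fd : (E2 →L[ℝ] ℝ) ≃L[ℝ] E2 := (toDual ℝ E2).symm.toContinuousLinearEquiv

omit L D in
theorem fd_inner (l : E2 →L[ℝ] ℝ) (v : E2) : inner ℝ (fd l) v = l v :=
  InnerProductSpace.toDual_symm_apply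

/-- the affine chart of the leaf of `x` -/
def ch (x : X) (η : B) : E2 := fd (gr L D x η - gr L D x (L.ep x))

/-- the linear part of the change of affine chart -/
def lin (x y : X) : E2 →L[ℝ] E2 :=
  ContinuousLinearMap.adjoint (fderiv ℝ (L.τ (L.flip y) (L.flip x)) 0)

/-- the domain of the affine chart, in a disc -/
def cd : Set ((X × X) × E2) := {q | q.2 ∈ ball (0 : E2) 3 ∧ L.e q.1.2 q.2 ≠ L.em q.1.1}

variable {L D}

theorem ch_ep (x : X) : ch L D x (L.ep x) = 0 := by simp [ch]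

theorem e0_flip (x : X) : L.e (L.flip x) 0 = L.em x := by rw [L.e_zero, L.ep_of_flip]

theorem ev_ball : ∀ᶠ u in 𝓝 (0 : E2), u ∈ ball (0 : E2) 3 := isOpen_ball.mem_nhds mem_ball0

theorem e_cat (x : X) {u : E2} (hu : u ∈ ball (0 : E2) 3) : ContinuousAt (L.e x) u :=
  (L.e_cont_x x).continuousAt (mem_of_superset (isOpen_ball.mem_nhds hu) ball_sub)

theorem lin_smul (g : Γ) {x y : X} (h : L.em x = L.em y) :
    lin L (g • x) (g • y) = lin L x y := by
  unfold lin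
  rw [L.flip_smul, L.flip_smul, fderiv_tau_smul g
    (dm_zero_of_ep (by rw [L.ep_of_flip, L.ep_of_flip, h]))]

theorem lin_back : ∃ C, ∀ x, ∀ t ≥ L.t1, ‖lin L x (L.φ (-t) x)‖ ≤ C * Real.exp (-L.χ * t) := by
  obtain ⟨C, hC⟩ := L.contract 1 le_rfl
  refine ⟨C, fun x t ht => ?_⟩
  have := hC (L.flip x) t ht 0 mem_ball0
  rw [norm_iteratedFDeriv_one] at this
  unfold lin
  rwa [LinearIsometryEquiv.norm_map, L.flip_φ, neg_neg]

namespace Hy

variable (H : Hy L D)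
include H

theorem symm {ξ η : B} (h : ξ ≠ η) : D ξ η = D η ξ := by
  obtain ⟨x, rfl, rfl, -⟩ := L.exists_frame ξ η h 0
  have h1 := H.hD (L.flip x)
  rw [em_flip, L.ep_of_flip] at h1
  rw [H.hD, h1, Leaf.lp, Leaf.lp, L.flip_flip, add_comm]

theorem smul (g : Γ) {ξ η : B} (h : ξ ≠ η) :
    D (g • ξ) (g • η) = D ξ η + cg L g ξ + cg L g η := by
  obtain ⟨x, rfl, rfl, -⟩ := L.exists_frame ξ η h 0
  have h1 := H.hD (g • x)
  rw [L.em_smul, L.ep_smul] at h1
  rw [h1, H.hD, cg_eq, L.ep_flip, cg_eq, Leaf.lp, Leaf.lp, L.flip_smul]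
  ring

theorem cd_ff {x y : X} {p : E2 × E2} (h1 : p.1 ∈ ball (0 : E2) 3) (h2 : p.2 ∈ ball (0 : E2) 3)
    (h : L.e x p.1 ≠ L.e y p.2) : ContDiffAt ℝ ∞ (ff L D (x, y)) p :=
  H.sm.f_jc.contDiffAt (p := ((x, y), p)) ⟨h1, h2, h⟩

theorem cd_D {x : X} {u : E2} {η : B} (hu : u ∈ ball (0 : E2) 3) (h : L.e x u ≠ η) :
    ContDiffAt ℝ ∞ (fun u => D (L.e x u) η) u := by
  obtain ⟨z, rfl⟩ := H824.exists_ep L η
  rw [← L.e_zero] at h ⊢
  exact cd_sl1 (H.cd_ff (x := x) (y := z) (p := (u, 0)) hu mem_ball0 h)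

theorem has_gr {x : X} {η : B} (h : η ≠ L.em x) :
    HasFDerivAt (fun u => D (L.e (L.flip x) u) η) (gr L D x η) 0 :=
  ((H.cd_D mem_ball0 (by rw [e0_flip]; exact h.symm)).differentiableAt (by simp)).hasFDerivAt

theorem cd_tau {x y : X} {u : E2} (hu : u ∈ L.dm x y) : ContDiffAt ℝ ∞ (L.τ x y) u :=
  H.sm.tau_jc.contDiffAt (p := ((x, y), u)) hu

theorem has_tau {x y : X} {u : E2} (hu : u ∈ L.dm x y) :
    HasFDerivAt (L.τ x y) (fderiv ℝ (L.τ x y) u) u :=
  ((H.cd_tau hu).differentiableAt (by simp)).hasFDerivAt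

theorem ftau_trans {x y z : X} {u : E2} (hu : u ∈ L.dm x y) (hw : L.τ x y u ∈ L.dm y z) :
    fderiv ℝ (L.τ x z) u = fderiv ℝ (L.τ y z) (L.τ x y u) ∘L fderiv ℝ (L.τ x y) u := by
  refine (((H.has_tau hw).comp u (H.has_tau hu)).congr_of_eventuallyEq ?_).fderiv
  filter_upwards [(isOpen_dm L x y).mem_nhds hu,
    (H.has_tau hu).continuousAt.eventually ((isOpen_dm L y z).mem_nhds hw)] with v h1 h2
  exact tau_trans h1 h2

theorem lin_trans {x y z : X} (h1 : L.em x = L.em y) (h2 : L.em y = L.em z) :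
    lin L x z = lin L y z ∘L lin L x y := by
  have e1 : L.ep (L.flip z) = L.ep (L.flip y) := by rw [L.ep_of_flip, L.ep_of_flip, h2]
  have e2 : L.ep (L.flip y) = L.ep (L.flip x) := by rw [L.ep_of_flip, L.ep_of_flip, h1]
  unfold lin
  rw [H.ftau_trans (dm_zero_of_ep e1) (by rw [tau_zero_of_ep e1]; exact dm_zero_of_ep e2),
    tau_zero_of_ep e1, ContinuousLinearMap.adjoint_comp]

omit H in
theorem lin_self (x : X) : lin L x x = ContinuousLinearMap.id ℝ E2 := by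
  unfold lin
  rw [fderiv_tau_self mem_ball0, ContinuousLinearMap.adjoint_id]

theorem lin_lin {x y : X} (h : L.em x = L.em y) (q : E2) : lin L y x (lin L x y q) = q := by
  have := H.lin_trans h h.symm
  rw [lin_self] at this
  exact (congrArg (fun A : E2 →L[ℝ] E2 => A q) this).symm

/-- the change of affine chart as an equivalence -/
def linE {x y : X} (h : L.em x = L.em y) : E2 ≃L[ℝ] E2 :=
  ContinuousLinearEquiv.equivOfInverse (lin L x y) (lin L y x) (H.lin_lin h) (H.lin_lin h.symm)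

theorem gr_trans {x y : X} (h : L.em x = L.em y) {η : B} (hη : η ≠ L.em x) :
    gr L D y η = gr L D x η ∘L fderiv ℝ (L.τ (L.flip y) (L.flip x)) 0 := by
  have e2 : L.ep (L.flip y) = L.ep (L.flip x) := by rw [L.ep_of_flip, L.ep_of_flip, h]
  have h1 := H.has_gr hη
  rw [← tau_zero_of_ep e2] at h1
  refine ((h1.comp 0 (H.has_tau (dm_zero_of_ep e2))).congr_of_eventuallyEq ?_).fderiv
  filter_upwards [(isOpen_dm L _ _).mem_nhds (dm_zero_of_ep e2)] with v hv
  simp only [Function.comp, e_tau hv]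

theorem ch_trans {x y : X} (h : L.em x = L.em y) {η : B} (hη : η ≠ L.em x) :
    ch L D y η = lin L x y (ch L D x η - ch L D x (L.ep y)) := by
  have h2 : L.ep y ≠ L.em x := h ▸ (L.em_ne_ep y).symm
  refine ext_inner_right ℝ fun v => ?_
  unfold ch lin
  rw [ContinuousLinearMap.adjoint_inner_left, ← map_sub, fd_inner, fd_inner, H.gr_trans h hη,
    H.gr_trans h h2]
  simp

theorem ch_same {x y : X} (h : L.em x = L.em y) (h' : L.ep x = L.ep y) {η : B}
    (hη : η ≠ L.em x) : ch L D y η = lin L x y (ch L D x η) := by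
  rw [H.ch_trans h hη, ← h', ch_ep, sub_zero]

theorem ch_smul (g : Γ) {x : X} {η : B} (hη : η ≠ L.em x) :
    ch L D (g • x) (g • η) = ch L D x η := by
  have h2 : L.ep x ≠ L.em x := (L.em_ne_ep x).symm
  have hg : ∀ ζ, ζ ≠ L.em x → g • ζ ≠ L.em (g • x) := fun ζ h h' =>
    h (MulAction.injective g (by rwa [L.em_smul] at h'))
  have h3 := (H.has_gr (hg _ hη)).sub (H.has_gr (hg _ h2))
  have h4 := ((H.has_gr hη).sub (H.has_gr h2)).add_const (cg L g η - cg L g (L.ep x))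
  have hc := e_cat (L := L) (L.flip x) mem_ball0
  unfold ch
  rw [L.ep_smul, h3.unique (h4.congr_of_eventuallyEq ?_)]
  filter_upwards [ev_ball, hc.eventually_ne (by rw [e0_flip]; exact hη.symm),
    hc.eventually_ne (by rw [e0_flip]; exact h2.symm)] with u hu h5 h6
  simp only [Pi.sub_apply]
  rw [L.flip_smul, L.e_smul g _ u (ball_sub hu), H.smul g h5, H.smul g h6]
  ring

theorem jc_gr : JC (fun (p : X × X) u => gr L D p.1 (L.e p.2 u)) (cd L) := by
  have hc : Continuous fun p : X × X => (L.flip p.1, p.2) :=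
    (L.flip_cont.comp continuous_fst).prodMk continuous_snd
  have h1 := ((jc_d1 H.sm.f_jc).pullback hc).comp
    ((JC.const isOpen_univ (0 : E2)).prodMk (JC.id (E := E2) isOpen_univ))
  have e : cd L = cdom (fun (_ : X × X) (u : E2) => (((0 : E2), u) : E2 × E2)) univ
      {p : (X × X) × (E2 × E2) | ((L.flip p.1.1, p.1.2), p.2) ∈ od L} := by
    ext q
    simp only [cd, cdom, od, mem_setOf_eq, mem_univ, true_and, mem_ball0, e0_flip]
    exact and_congr_right fun _ => ne_comm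
  rw [e]
  exact h1

theorem jc_ch : JC (fun (p : X × X) u => ch L D p.1 (L.e p.2 u)) (cd L) := by
  have h1 : Continuous fun x => gr L D x (L.ep x) := by
    have := H.jc_gr.continuousOn.comp_continuous
      (f := fun x : X => (((x, x), 0) : (X × X) × E2)) (by fun_prop) fun x =>
        ⟨mem_ball0, by rw [L.e_zero]; exact (L.em_ne_ep x).symm⟩
    simpa only [Function.comp_def, L.e_zero] using this
  exact JC.clm (fd : (E2 →L[ℝ] ℝ) →L[ℝ] E2)
    (H.jc_gr.sub (JC.param' H.jc_gr.isOpen (h1.comp continuous_fst)))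

omit H in
theorem inv_of_inj {A : E2 →L[ℝ] E2} (h : Function.Injective A) : A.IsInvertible :=
  ⟨(LinearEquiv.ofInjectiveEndo (A : E2 →ₗ[ℝ] E2) h).toContinuousLinearEquiv, by ext v; rfl⟩

theorem inv_ch {q : (X × X) × E2} (hq : q ∈ cd L) :
    (fderiv ℝ (fun u => ch L D q.1.1 (L.e q.1.2 u)) q.2).IsInvertible := by
  have h1 := H.sm.nd (L.flip q.1.1) q.1.2 0 q.2 ⟨mem_ball0, hq.1, by
    simp only [e0_flip]; exact hq.2.symm⟩
  have h2 := (fd : (E2 →L[ℝ] ℝ) →L[ℝ] E2).hasFDerivAt.comp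
    q.2 ((H.jc_gr.hasFDerivAt hq).sub_const (gr L D q.1.1 (L.ep q.1.1)))
  refine inv_of_inj ?_
  rw [show fderiv ℝ (fun u => ch L D q.1.1 (L.e q.1.2 u)) q.2 = _ from h2.fderiv]
  exact fd.injective.comp h1

theorem unif0 (x : X) : ∀ᶠ z : (E2 × E2) × X in 𝓝 ((0, 0), x),
    (ch L D z.2 (L.e z.2 z.1.1) = ch L D z.2 (L.e z.2 z.1.2) → z.1.1 = z.1.2) ∧
      ∃ u ∈ ball (0 : E2) 3, ch L D z.2 (L.e z.2 u) = z.1.1 := by
  have h0 : (((x, x), 0) : (X × X) × E2) ∈ cd L :=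
    ⟨mem_ball0, by rw [L.e_zero]; exact (L.em_ne_ep x).symm⟩
  obtain ⟨T, g, hg, hT, -, h2, -, O, hO, hO0, h3⟩ := H.jc_ch.inverse_local h0 (H.inv_ch h0)
  simp only [L.e_zero, ch_ep] at hT
  have c1 : Tendsto (fun z : (E2 × E2) × X => (((z.2, z.2), z.1.1) : (X × X) × E2))
      (𝓝 ((0, 0), x)) (𝓝 ((x, x), 0)) := Continuous.tendsto' (by fun_prop) _ _ rfl
  have c2 : Tendsto (fun z : (E2 × E2) × X => (((z.2, z.2), z.1.2) : (X × X) × E2))
      (𝓝 ((0, 0), x)) (𝓝 ((x, x), 0)) := Continuous.tendsto' (by fun_prop) _ _ rfl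
  filter_upwards [c1.eventually (hO.mem_nhds hO0), c2.eventually (hO.mem_nhds hO0),
    c1.eventually (hg.isOpen.mem_nhds hT)] with z z1 z2 z3
  refine ⟨fun h => ?_, _, (h2 _ z3).1.1, (h2 _ z3).2⟩
  have e1 : g (z.2, z.2) (ch L D z.2 (L.e z.2 z.1.1)) = z.1.1 := (h3 _ z1).2
  have e2 : g (z.2, z.2) (ch L D z.2 (L.e z.2 z.1.2)) = z.1.2 := (h3 _ z2).2
  rw [← e1, h, e2]

theorem unif : ∃ δ > 0, ∀ x, (∀ u ∈ ball (0 : E2) δ, ∀ v ∈ ball (0 : E2) δ,
    ch L D x (L.e x u) = ch L D x (L.e x v) → u = v) ∧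
    ∀ q ∈ ball (0 : E2) δ, ∃ u ∈ ball (0 : E2) 3, ch L D x (L.e x u) = q := by
  obtain ⟨K, hK, hco⟩ := L.cocompact
  have h1 : ∀ᶠ w in 𝓝 ((0, 0) : E2 × E2), ∀ x ∈ K,
      (ch L D x (L.e x w.1) = ch L D x (L.e x w.2) → w.1 = w.2) ∧
      ∃ u ∈ ball (0 : E2) 3, ch L D x (L.e x u) = w.1 :=
    hK.eventually_forall_of_forall_eventually fun x _ => H.unif0 x
  obtain ⟨δ, hδ, h2⟩ := Metric.eventually_nhds_iff_ball.1 h1
  refine ⟨min δ 3, by positivity, fun x => ?_⟩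
  obtain ⟨g, hg⟩ := hco x
  have e : ∀ u ∈ ball (0 : E2) 3, ch L D (g • x) (L.e (g • x) u) = ch L D x (L.e x u) :=
    fun u hu => by rw [L.e_smul g x u (ball_sub hu), H.ch_smul g (L.e_ne x u (ball_sub hu))]
  have s1 := ball_subset_ball (x := (0 : E2)) (min_le_left δ 3)
  have s2 := ball_subset_ball (x := (0 : E2)) (min_le_right δ 3)
  refine ⟨fun u hu v hv h => (h2 (u, v) (by
    rw [← ball_prod_same]; exact ⟨s1 hu, s1 hv⟩) _ hg).1 (by rw [e _ (s2 hu), e _ (s2 hv), h]),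
    fun q hq => ?_⟩
  obtain ⟨u, hu, h3⟩ := (h2 (q, q) (by rw [← ball_prod_same]; exact ⟨s1 hq, s1 hq⟩) _ hg).2
  exact ⟨u, hu, by rw [← e u hu, h3]⟩

omit H in
theorem tend_exp (L : Leaf Γ X B) (C : ℝ) :
    Tendsto (fun t : ℝ => C * Real.exp (-L.χ * t)) atTop (𝓝 0) := by
  have := (Real.tendsto_exp_atBot.comp
    (tendsto_id.const_mul_atTop_of_neg (show -L.χ < 0 by linarith [L.χ_pos]))).const_mul C
  simpa using this

omit H in
theorem small {x : X} {η : B} (h : η ≠ L.em x) {δ : ℝ} (hδ : 0 < δ) :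
    ∀ᶠ t in atTop, ∃ u ∈ ball (0 : E2) δ, u ∈ ball (0 : E2) 3 ∧ L.e (L.φ (-t) x) u = η := by
  obtain ⟨c, hc⟩ := H662.exhaust L h
  obtain ⟨u, hu, rfl⟩ := hc c le_rfl
  obtain ⟨C, -, hC⟩ := H824.shrink0 L
  have h1 := (tendsto_atTop_add_const_right atTop (-c) tendsto_id).eventually
    (((tend_exp L C).eventually (gt_mem_nhds hδ)).and (eventually_ge_atTop L.t1))
  filter_upwards [h1] with t ht
  obtain ⟨v, hv, h2, h3⟩ := hC (L.φ (-t) x) _ ht.2 u (ball_subset_ball (by norm_num) hu)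
  refine ⟨v, mem_ball_zero_iff.2 (h2.trans_lt ht.1), ball_subset_ball (by norm_num) hv, ?_⟩
  rw [← h3, ← L.φ_add]
  congr 2
  simp

theorem ch_inj {x : X} {η ζ : B} (hη : η ≠ L.em x) (hζ : ζ ≠ L.em x)
    (h : ch L D x η = ch L D x ζ) : η = ζ := by
  obtain ⟨δ, hδ, h1⟩ := H.unif
  obtain ⟨t, ⟨u, hu, -, rfl⟩, v, hv, -, rfl⟩ := ((small hη hδ).and (small hζ hδ)).exists
  rw [(h1 (L.φ (-t) x)).1 u hu v hv ?_]
  rw [H.ch_same (L.em_φ _ x).symm (L.ep_φ _ x).symm hη,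
    H.ch_same (L.em_φ _ x).symm (L.ep_φ _ x).symm hζ, h]

theorem ch_surj (x : X) (q : E2) : ∃ η, η ≠ L.em x ∧ ch L D x η = q := by
  obtain ⟨δ, hδ, h1⟩ := H.unif
  obtain ⟨C, hC⟩ := lin_back (L := L)
  obtain ⟨t, ht, ht1⟩ := (((tend_exp L (C * ‖q‖)).eventually (gt_mem_nhds hδ)).and
    (eventually_ge_atTop L.t1)).exists
  obtain ⟨u, hu, h2⟩ := (h1 (L.φ (-t) x)).2 (lin L x (L.φ (-t) x) q) (mem_ball_zero_iff.2
    (((lin L x _).le_of_opNorm_le (hC x t ht1) q).trans_lt (by linarith)))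
  have hne : L.e (L.φ (-t) x) u ≠ L.em x := by
    have := L.e_ne (L.φ (-t) x) u (ball_sub hu)
    rwa [L.em_φ] at this
  refine ⟨_, hne, ?_⟩
  rw [H.ch_same (L.em_φ _ x).symm (L.ep_φ _ x).symm hne] at h2
  exact (H.linE (L.em_φ (-t) x).symm).injective h2

/-- the point of the leaf of `x` with affine coordinate `q` -/
def pt (x : X) (q : E2) : B := (H.ch_surj x q).choose

theorem pt_ne (x : X) (q : E2) : H.pt x q ≠ L.em x := (H.ch_surj x q).choose_spec.1

theorem ch_pt (x : X) (q : E2) : ch L D x (H.pt x q) = q := (H.ch_surj x q).choose_spec.2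

theorem pt_ch {x : X} {η : B} (h : η ≠ L.em x) : H.pt x (ch L D x η) = η :=
  H.ch_inj (H.pt_ne _ _) h (H.ch_pt _ _)

theorem pt_inj (x : X) : Function.Injective (H.pt x) := fun a b h => by
  rw [← H.ch_pt x a, h, H.ch_pt]

theorem pt_zero (x : X) : H.pt x 0 = L.ep x := by
  rw [← ch_ep (L := L) (D := D) x, H.pt_ch (L.em_ne_ep x).symm]

theorem pt_smul (g : Γ) (x : X) (q : E2) : H.pt (g • x) q = g • H.pt x q := by
  have h : g • H.pt x q ≠ L.em (g • x) := fun h' =>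
    H.pt_ne x q (MulAction.injective g (by rwa [L.em_smul] at h'))
  rw [← H.pt_ch h, H.ch_smul g (H.pt_ne x q), H.ch_pt]

theorem pt_trans {x y : X} (h : L.em x = L.em y) (q : E2) :
    H.pt y (lin L x y (q - ch L D x (L.ep y))) = H.pt x q := by
  have := H.ch_trans h (H.pt_ne x q)
  rw [H.ch_pt] at this
  rw [← this, H.pt_ch (h ▸ H.pt_ne x q)]

theorem pt_same {x y : X} (h : L.em x = L.em y) (h' : L.ep x = L.ep y) (q : E2) :
    H.pt y (lin L x y q) = H.pt x q := by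
  rw [← H.pt_trans h q, ← h', ch_ep, sub_zero]

/-- local description of `pt` -/
theorem pt_loc (x : X) (q : E2) {z : X} (hz : H.pt x q ∈ L.e z '' ball 0 3) :
    ∃ (T : Set ((X × X) × E2)) (g : X × X → E2 → E2), JC g T ∧ ((x, z), q) ∈ T ∧
      ∀ p ∈ T, g p.1 p.2 ∈ ball (0 : E2) 3 ∧ H.pt p.1.1 p.2 = L.e p.1.2 (g p.1 p.2) := by
  obtain ⟨u, hu, e⟩ := hz
  have h0 : (((x, z), u) : (X × X) × E2) ∈ cd L := ⟨hu, by rw [e]; exact H.pt_ne x q⟩
  obtain ⟨T, g, hg, hT, -, h2, -⟩ := H.jc_ch.inverse_local h0 (H.inv_ch h0)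
  simp only [e, H.ch_pt] at hT
  refine ⟨T, g, hg, hT, fun p hp => ⟨(h2 p hp).1.1, ?_⟩⟩
  rw [← H.pt_ch (h2 p hp).1.2, (h2 p hp).2]

theorem pt_cont : Continuous fun p : X × E2 => H.pt p.1 p.2 := by
  refine continuous_iff_continuousAt.2 fun p => ?_
  obtain ⟨z, hz⟩ := H824.exists_ep L (H.pt p.1 p.2)
  obtain ⟨T, g, hg, hT, h⟩ := H.pt_loc p.1 p.2 (z := z) ⟨0, mem_ball0, by rw [L.e_zero, hz]⟩
  have c1 : Continuous fun p : X × E2 => (((p.1, z), p.2) : (X × X) × E2) := by fun_prop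
  have h1 := (hg.continuousOn.continuousAt (hg.isOpen.mem_nhds hT)).comp
    (f := fun p : X × E2 => (((p.1, z), p.2) : (X × X) × E2)) c1.continuousAt
  refine ((e_cat (L := L) z (h _ hT).1).comp (f := fun p : X × E2 => g (p.1, z) p.2) h1).congr ?_
  filter_upwards [c1.continuousAt.eventually (hg.isOpen.mem_nhds hT)] with r hr
  exact (h _ hr).2.symm

theorem pt_cont' (x : X) : Continuous (H.pt x) :=
  H.pt_cont.comp (f := fun q => (x, q)) (by fun_prop)

end Hy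

end Vale.Agent.P207Z.K
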