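import Vale.Agent.P207Z.SM.K.Aff

/-!
# P207, smooth case: extension of formal Killing pairs
-/

set_option linter.all false

open Set Filter Topology Metric Asymptotics
open scoped ContDiff

noncomputable section

namespace Vale.Agent.P207Z.K

open Vale.Agent.P207.N3 Vale.Agent.P207.N4 Vale.Agent.P207.N4.H391

section gen

variable {E F G Y W : Type} [NormedAddCommGroup E] [NormedSpace ℝ E] [NormedAddCommGroup F]
  [NormedSpace ℝ F] [NormedAddCommGroup G] [NormedSpace ℝ G] [NormedAddCommGroup Y]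
  [NormedSpace ℝ Y] [NormedAddCommGroup W] [NormedSpace ℝ W]

theorem dfa {f : E → F} {x : E} (h : ContDiffAt ℝ ∞ f x) : DifferentiableAt ℝ f x :=
  h.differentiableAt (by simp)

theorem cdf {f : E → F} {x : E} (h : ContDiffAt ℝ ∞ f x) : ContDiffAt ℝ ∞ (fderiv ℝ f) x :=
  h.fderiv_right (by simp)

theorem Poly.congr {f g : E → F} (h : Poly f) (e : ∀ y, f y = g y) : Poly g :=
  (funext e : f = g) ▸ h

theorem poly_p1 (B : F →L[ℝ] G →L[ℝ] W) {c : Y → E → F} {s : E → G} {a : E}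
    (hc : ∀ y, ContDiffAt ℝ ∞ (c y) a) (hs : ContDiffAt ℝ ∞ s a) (h0 : Poly fun y => c y a)
    (h1 : Poly fun y => fderiv ℝ (c y) a) :
    Poly fun y => fderiv ℝ (fun v => B (c y v) (s v)) a := by
  have := ((Poly.bilin (B.precompR E) h0 (Poly.const (fderiv ℝ s a))).add
    (Poly.bilin (B.precompL E) h1 (Poly.const (s a))))
  rwa [show (fun y => fderiv ℝ (fun v => B (c y v) (s v)) a) = _ from funext fun y =>
    B.fderiv_of_bilinear (dfa (hc y)) (dfa hs)]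

theorem poly_p2 (B : F →L[ℝ] G →L[ℝ] W) {c : Y → E → F} {s : E → G} {a : E}
    (hc : ∀ y, ContDiffAt ℝ ∞ (c y) a) (hs : ContDiffAt ℝ ∞ s a) (h0 : Poly fun y => c y a)
    (h1 : Poly fun y => fderiv ℝ (c y) a) (h2 : Poly fun y => fderiv ℝ (fderiv ℝ (c y)) a) :
    Poly fun y => fderiv ℝ (fderiv ℝ fun v => B (c y v) (s v)) a := by
  have := (poly_p1 (B.precompR E) hc (cdf hs) h0 h1).add
    (poly_p1 (B.precompL E) (fun y => cdf (hc y)) hs h1 h2)
  refine this.congr fun y => ?_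
  have c1 : DifferentiableAt ℝ (fun v => B.precompR E (c y v) (fderiv ℝ s v)) a :=
    ((B.precompR E).differentiableAt.comp a (dfa (hc y))).clm_apply (dfa (cdf hs))
  have c2 : DifferentiableAt ℝ (fun v => B.precompL E (fderiv ℝ (c y) v) (s v)) a :=
    ((B.precompL E).differentiableAt.comp a (dfa (cdf (hc y)))).clm_apply (dfa hs)
  rw [← fderiv_fun_add c1 c2]
  refine Filter.EventuallyEq.fderiv_eq ?_
  filter_upwards [ev_diff (hc y), ev_diff hs] with v h3 h4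
  exact (B.fderiv_of_bilinear h3 h4).symm

theorem has_d12 {Ψ : E × G → F} {p : E × G} (hΨ : ContDiffAt ℝ ∞ Ψ p) (w : G) :
    HasFDerivAt (fun a => d2 Ψ (a, p.2) w) (d2 (d1 Ψ) p w) p.1 := by
  rw [← d1_d2 hΨ]
  exact has_d1 (Φ := fun q => d2 Ψ q w) ((cd_d2 hΨ).clm_apply contDiffAt_const)

theorem d1_step {Φ Ψ : E × G → F} {p : E × G} (hΦ : ContDiffAt ℝ ∞ Φ p)
    (hΨ : ContDiffAt ℝ ∞ Ψ p) (w : G → G) (k : G → F) :
    d1 (fun q => Φ q + d2 Ψ q (w q.2) - k q.2) p = d1 Φ p + d2 (d1 Ψ) p (w p.2) :=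
  (((has_d1 hΦ).add (has_d12 hΨ (w p.2))).sub_const (k p.2)).fderiv

end gen

variable [Dim]

theorem conn {s : Set E2} (h : s.Subsingleton) : IsPreconnected sᶜ :=
  (h.finite.countable.isConnected_compl_of_one_lt_rank (by
    rw [← Module.finrank_eq_rank, finrank_euclideanSpace_fin]
    exact_mod_cast Dim.two_le)).isPreconnected

variable {Γ X B : Type} [Group Γ] [MetricSpace X] [ProperSpace X] [MulAction Γ X]
  [IsIsometricSMul Γ X] [TopologicalSpace B] [CompactSpace B] [T2Space B] [MulAction Γ B]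
  [ContinuousConstSMul Γ B] {L : Leaf Γ X B} {D : B → B → ℝ}

namespace Hy

variable (H : Hy L D)

/-- the moment function of a field `V` and a function `f` given in the chart `y` -/
def mo (y : X) (V : E2 → E2) (f : E2 → ℝ) (z : X) (p : E2 × E2) : ℝ :=
  d1 (H.G y z) p (V p.1) - f p.1

variable {y : X} {V : E2 → E2} {f : E2 → ℝ}

theorem cd_mo (hV : ContDiff ℝ ∞ V) (hf : ContDiff ℝ ∞ f) {z : X} {p : E2 × E2}
    (h : H.pt y p.1 ≠ H.pt z p.2) : ContDiffAt ℝ ∞ (H.mo y V f z) p :=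
  ((cd_d1 (H.cd_G h)).clm_apply (hV.contDiffAt.comp p contDiffAt_fst)).sub
    (hf.contDiffAt.comp p contDiffAt_fst)

theorem d2_Q {a : E2} {Q : (E2 →L[ℝ] ℝ) → E2 →L[ℝ] E2 →L[ℝ] ℝ} (hQ : Poly Q)
    (h1 : ∀ z b, H.pt y a ≠ H.pt z b → d1 (d1 (H.G y z)) (a, b) = Q (d1 (H.G y z) (a, b)))
    {z : X} {b : E2} (h : H.pt y a ≠ H.pt z b) (w : E2) : d2 (d1 (d1 (H.G y z))) (a, b) w =
      fderiv ℝ Q (d1 (H.G y z) (a, b)) (d2 (d1 (H.G y z)) (a, b) w) := by
  have h2 : d2 (d1 (d1 (H.G y z))) (a, b) = _ :=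
    (((dfa hQ.1.contDiffAt).hasFDerivAt.comp b
      (has_d2 (p := (a, b)) (cd_d1 (H.cd_G h)))).congr_of_eventuallyEq
      ((ev_sl2 (p := (a, b)) (H.ev_Om h)).mono fun v hv => h1 z v hv)).fderiv
  rw [h2]
  rfl

theorem stepE (hV : ContDiff ℝ ∞ V) (hf : ContDiff ℝ ∞ f) {x : X} (hx : L.ep x = L.em y)
    {V' : E2 → E2} {f' : E2 → ℝ} (hV' : ContDiff ℝ ∞ V') (hf' : ContDiff ℝ ∞ f') (a : E2)
    (hF : Flat (fun p : E2 × E2 => ‖p.2‖)
      (fun p => H.mo y V f x p + d2 (H.G y x) p (V' p.2) - f' p.2) (a, 0)) :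
    ∃ Q : (E2 →L[ℝ] ℝ) → E2 →L[ℝ] E2 →L[ℝ] ℝ, Poly Q ∧
      (∀ z b, H.pt y a ≠ H.pt z b → d1 (d1 (H.G y z)) (a, b) = Q (d1 (H.G y z) (a, b))) ∧
      ∀ z b, H.pt y a ≠ H.pt z b → d1 (d1 (H.mo y V f z)) (a, b) =
        fderiv ℝ Q (d1 (H.G y z) (a, b)) (d1 (H.mo y V f z) (a, b)) := by
  obtain ⟨o, ho⟩ := exists_em L (H.pt y a)
  obtain ⟨K, c, hK⟩ := H.d1_aff ho.symm
  obtain ⟨q2, q3⟩ := H.poly23 ho.symm
  set β : (E2 →L[ℝ] ℝ) → E2 := fun l => (K.symm : (E2 →L[ℝ] ℝ) →L[ℝ] E2) l + -K.symm c with hβ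
  have b1 : ∀ l, d1 (H.G y o) (a, β l) = l := fun l => by simp [hK, hβ]
  have b2 : ∀ z b, H.pt y a ≠ H.pt z b → H.pt o (β (d1 (H.G y z) (a, b))) = H.pt z b :=
    fun z b h => by
      have h1 : H.pt z b ≠ L.em o := by rw [ho]; exact h.symm
      have h2 : d1 (H.G y z) (a, b) = d1 (H.G y o) (a, H.tr z o b) := by
        simp only [d1, G, H.pt_tr h1]
      rw [h2, hK, ← H.pt_tr h1]
      simp [hβ]
  have ne : ∀ b, H.pt y a ≠ H.pt o b := fun b => by rw [← ho]; exact (H.pt_ne o b).symm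
  set Q := fun l => d1 (d1 (H.G y o)) (a, β l) with hQ
  have pQ : Poly Q := q2.aff _ _
  have hQ1 : ∀ z b, H.pt y a ≠ H.pt z b →
      d1 (d1 (H.G y z)) (a, b) = Q (d1 (H.G y z) (a, b)) := fun z b h => by
    have := b2 z b h
    simp only [hQ]
    generalize β (d1 (H.G y z) (a, b)) = r at this
    simp only [d1, G, this]
  have cg : ∀ l, ContDiffAt ℝ ∞ (fun v => d1 (H.G y o) (v, β l)) a := fun l =>
    cd_sl1 (p := (a, β l)) (cd_d1 (H.cd_G (ne _)))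
  have p0 : Poly fun l => d1 (H.G y o) (a, β l) :=
    (Poly.lin (ContinuousLinearMap.id ℝ (E2 →L[ℝ] ℝ))).congr fun l => (b1 l).symm
  have ca : ∀ l, ContDiffAt ℝ ∞ (fun v => d1 (H.G y o) (v, β l) (V v)) a := fun l =>
    (cg l).clm_apply hV.contDiffAt
  have m1 : Poly fun l => d1 (H.mo y V f o) (a, β l) := by
    have := (poly_p1 (ContinuousLinearMap.id ℝ (E2 →L[ℝ] ℝ)) cg hV.contDiffAt p0 pQ).sub
      (Poly.const (fderiv ℝ f a))
    refine this.congr fun l => ?_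
    exact (fderiv_fun_sub (dfa (ca l)) (dfa hf.contDiffAt)).symm
  have m2 : Poly fun l => d1 (d1 (H.mo y V f o)) (a, β l) := by
    have := (poly_p2 (ContinuousLinearMap.id ℝ (E2 →L[ℝ] ℝ)) cg hV.contDiffAt p0 pQ
      (q3.aff _ _)).sub (Poly.const (fderiv ℝ (fderiv ℝ f) a))
    refine this.congr fun l => ?_
    refine ((fderiv_fun_sub (dfa (cdf (ca l))) (dfa (cdf hf.contDiffAt))).symm.trans
      (Filter.EventuallyEq.fderiv_eq ?_))
    filter_upwards [ev_diff (ca l)] with v hv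
    exact (fderiv_fun_sub hv (dfa hf.contDiffAt)).symm
  have pE := m2.sub (pQ.fderiv.app m1)
  have n0 : H.pt y a ≠ H.pt x 0 := by rw [H.pt_zero, hx]; exact H.pt_ne _ _
  set l₀ := d1 (H.G y x) (a, 0)
  have n1 : H.pt o (β l₀) ≠ L.em x := by rw [b2 x 0 n0]; exact H.pt_ne _ _
  have cβ : ContDiff ℝ ∞ β := by rw [hβ]; fun_prop
  have cγ : ContDiffAt ℝ ∞ (fun l => H.tr o x (β l)) l₀ := (H.cd_tr n1).comp l₀ cβ.contDiffAt
  have γ0 : H.tr o x (β l₀) = 0 := by rw [tr, b2 x 0 n0, H.ch_pt]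
  have tγ : Tendsto (fun l => ((a, H.tr o x (β l)) : E2 × E2)) (𝓝 l₀) (𝓝 (a, 0)) := by
    rw [← γ0]; exact tendsto_const_nhds.prodMk_nhds cγ.continuousAt
  have oγ : ∀ N : ℕ, (fun l => ‖H.tr o x (β l)‖ ^ N) =O[𝓝 l₀] fun l => ‖l - l₀‖ ^ N := fun N => by
    have := (dfa cγ).isBigO_sub
    simp only [γ0, sub_zero] at this
    exact this.norm_norm.pow N
  set F := fun p : E2 × E2 => H.mo y V f x p + d2 (H.G y x) p (V' p.2) - f' p.2 with hFd
  have cF : ContDiffAt ℝ ∞ F (a, 0) :=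
    ((H.cd_mo hV hf n0).add ((cd_d2 (H.cd_G n0)).clm_apply
      (hV'.contDiffAt.comp _ contDiffAt_snd))).sub (hf'.contDiffAt.comp _ contDiffAt_snd)
  have F1 : ∀ p : E2 × E2, H.pt y p.1 ≠ H.pt x p.2 →
      d1 F p = d1 (H.mo y V f x) p + d2 (d1 (H.G y x)) p (V' p.2) - 0 := fun p hp => by
    rw [sub_zero]; exact d1_step (H.cd_mo hV hf hp) (H.cd_G hp) V' f'
  have F2 : ∀ p : E2 × E2, H.pt y p.1 ≠ H.pt x p.2 → d1 (d1 F) p =
      d1 (d1 (H.mo y V f x)) p + d2 (d1 (d1 (H.G y x))) p (V' p.2) := fun p hp =>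
    (d1_congr ((H.ev_Om hp).mono F1)).trans
      (d1_step (cd_d1 (H.cd_mo hV hf hp)) (cd_d1 (H.cd_G hp)) V' fun _ => 0)
  have fl : Flat (fun l => ‖l - l₀‖) (fun l => d1 (d1 (H.mo y V f o)) (a, β l) -
      fderiv ℝ Q l (d1 (H.mo y V f o) (a, β l))) l₀ := fun N => by
    have o1 := ((hF.d1 cF N).comp_tendsto tγ).trans (oγ N)
    have o2 := (((hF.d1 cF).d1 (cd_d1 cF) N).comp_tendsto tγ).trans (oγ N)
    have o3 : (fun l => fderiv ℝ Q l (d1 F (a, H.tr o x (β l)))) =O[𝓝 l₀]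
        fun l => ‖l - l₀‖ ^ N := by
      refine IsBigO.trans (IsBigO.of_bound (‖fderiv ℝ Q l₀‖ + 1) ?_) o1
      filter_upwards [pQ.fderiv.1.continuous.norm.continuousAt.eventually
        (gt_mem_nhds (lt_add_one ‖fderiv ℝ Q l₀‖))] with l hl
      exact (fderiv ℝ Q l).le_of_opNorm_le hl.le _
    refine (o2.sub o3).congr' ?_ EventuallyEq.rfl
    filter_upwards [cβ.continuous.continuousAt.eventually (H.ev_ne o n1)] with l hl
    have e := H.pt_tr hl
    have n2 : H.pt y a ≠ H.pt x (H.tr o x (β l)) := by rw [e]; exact ne _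
    have e1 : d1 (H.G y x) (a, H.tr o x (β l)) = l := by
      simp only [d1, G, e]
      exact b1 l
    have e2 : d1 (H.mo y V f x) (a, H.tr o x (β l)) = d1 (H.mo y V f o) (a, β l) := by
      simp only [d1, mo, G, e]
    have e3 : d1 (d1 (H.mo y V f x)) (a, H.tr o x (β l)) = d1 (d1 (H.mo y V f o)) (a, β l) := by
      simp only [d1, mo, G, e]
    simp only [Function.comp]
    rw [F2 _ n2, F1 _ n2, H.d2_Q pQ hQ1 n2, e1, e2, e3, sub_zero, map_add]
    abel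
  refine ⟨Q, pQ, hQ1, fun z b h => ?_⟩
  have := sub_eq_zero.1 (pE.eq_zero_of_flat fl (d1 (H.G y z) (a, b)))
  have e := b2 z b h
  generalize d1 (H.G y z) (a, b) = l at this e ⊢
  simp only [d1, mo, G, e] at this ⊢
  exact this

/-- **extension**: a formal Killing pair along a leaf is a Killing pair -/
theorem ext (hV : ContDiff ℝ ∞ V) (hf : ContDiff ℝ ∞ f) {x : X} (hx : L.ep x = L.em y)
    {V' : E2 → E2} {f' : E2 → ℝ} (hV' : ContDiff ℝ ∞ V') (hf' : ContDiff ℝ ∞ f')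
    (hF : ∀ a, Flat (fun p : E2 × E2 => ‖p.2‖)
      (fun p => H.mo y V f x p + d2 (H.G y x) p (V' p.2) - f' p.2) (a, 0)) (z : X) (b : E2) :
    ∃ w c, ∀ a, H.pt y a ≠ H.pt z b → H.mo y V f z (a, b) + d2 (H.G y z) (a, b) w = c := by
  set U : Set E2 := (H.pt y ⁻¹' {H.pt z b})ᶜ
  have hU : IsOpen U := (isClosed_singleton.preimage (H.pt_cont' y)).isOpen_compl
  have hc : IsPreconnected U := conn (subsingleton_singleton.preimage (H.pt_inj y))
  set om := fun a => d2 (d1 (H.G y z)) (a, b) with hom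
  set m := fun a => d1 (H.mo y V f z) (a, b) with hm
  set W := fun a => -(om a).inverse (m a) with hW
  have com : ∀ a ∈ U, ContDiffAt ℝ ∞ om a := fun a ha =>
    cd_sl1 (p := (a, b)) (cd_d2 (cd_d1 (H.cd_G ha)))
  have cm : ∀ a ∈ U, ContDiffAt ℝ ∞ m a := fun a ha =>
    cd_sl1 (p := (a, b)) (cd_d1 (H.cd_mo hV hf ha))
  have iom : ∀ a ∈ U, (om a).IsInvertible := fun a ha => H.nd (p := (a, b)) ha
  have cW : ∀ a ∈ U, ContDiffAt ℝ ∞ W a := fun a ha =>
    (((iom a ha).contDiffAt_map_inverse.comp a (com a ha)).clm_apply (cm a ha)).neg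
  have id : ∀ a ∈ U, om a (W a) = -m a := fun a ha => by
    obtain ⟨e, he⟩ := iom a ha
    simp [hW, ← he]
  have dW : ∀ a ∈ U, fderiv ℝ W a = 0 := fun a ha => by
    obtain ⟨Q, pQ, h1, h2⟩ := H.stepE hV hf hx hV' hf' a (hF a)
    have h3 := (dfa (com a ha)).hasFDerivAt.clm_apply (dfa (cW a ha)).hasFDerivAt
    have h4 := h3.unique ((has_d1 (p := (a, b))
      (cd_d1 (H.cd_mo hV hf ha))).neg.congr_of_eventuallyEq
      (Filter.Eventually.mono (hU.mem_nhds ha) id))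
    have h5 := ((dfa (com a ha)).hasFDerivAt.clm_apply (hasFDerivAt_const (W a) a)).unique
      (has_d12 (p := (a, b)) (cd_d1 (H.cd_G ha)) (W a))
    rw [ContinuousLinearMap.comp_zero, zero_add] at h5
    rw [h5, H.d2_Q pQ h1 ha, show d2 (d1 (H.G y z)) (a, b) (W a) = -m a from id a ha, map_neg,
      h2 z b ha, add_eq_right] at h4
    obtain ⟨e, he⟩ := iom a ha
    ext1 v
    have := congrArg (fun A : E2 →L[ℝ] E2 →L[ℝ] ℝ => A v) h4
    simpa [← he] using this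
  obtain ⟨w, hw⟩ := hU.exists_is_const_of_fderiv_eq_zero hc
    (fun a ha => (dfa (cW a ha)).differentiableWithinAt) dW
  have hd : ∀ a ∈ U, HasFDerivAt (fun v => H.mo y V f z (v, b) + d2 (H.G y z) (v, b) w)
      (0 : E2 →L[ℝ] ℝ) a := fun a ha => by
    have := (has_d1 (p := (a, b)) (H.cd_mo hV hf ha)).add (has_d12 (p := (a, b)) (H.cd_G ha) w)
    rwa [← hw a ha, show d2 (d1 (H.G y z)) (a, b) (W a) = -m a from id a ha, add_neg_cancel,
      hw a ha] at this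
  obtain ⟨c, hc⟩ := hU.exists_is_const_of_fderiv_eq_zero hc
    (fun a ha => (hd a ha).differentiableAt.differentiableWithinAt) fun a ha => (hd a ha).fderiv
  exact ⟨w, c, hc⟩

end Hy

end Vale.Agent.P207Z.K
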