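import Vale.Agent.P207Z.SM.K.Per

/-!
# P207, smooth case: a global Killing field with a hyperbolic zero, in the affine charts
-/

set_option linter.all false

open Set Filter Topology Metric Asymptotics
open scoped ContDiff

noncomputable section

namespace Vale.Agent.P207Z.K

open Vale.Agent.P207.N3 Vale.Agent.P207.N4 Vale.Agent.P207.N4.H391

variable [Dim]

variable {Γ X B : Type} [Group Γ] [MetricSpace X] [ProperSpace X] [MulAction Γ X]
  [IsIsometricSMul Γ X] [TopologicalSpace B] [CompactSpace B] [T2Space B] [MulAction Γ B]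
  [ContinuousConstSMul Γ B] {L : Leaf Γ X B} {D : B → B → ℝ}

namespace Hy

variable (H : Hy L D)

theorem ex_ne (y : X) (ζ : B) : ∃ a, H.pt y a ≠ ζ := by
  obtain ⟨a, b, h⟩ := exists_pair_ne E2
  by_cases ha : H.pt y a = ζ
  · exact ⟨b, fun hb => h (H.pt_inj y (ha.trans hb.symm))⟩
  · exact ⟨a, ha⟩

theorem uniq {y z : X} {b w : E2} {c : ℝ}
    (h : ∀ a, H.pt y a ≠ H.pt z b → d2 (H.G y z) (a, b) w = c) : w = 0 ∧ c = 0 := by
  obtain ⟨a, ha⟩ := H.ex_ne y (H.pt z b)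
  have h1 := (has_d12 (p := (a, b)) (H.cd_G ha) w).unique
    ((hasFDerivAt_const c a).congr_of_eventuallyEq ((H.ev_ne y ha).mono h))
  obtain ⟨e, he⟩ := H.nd (p := (a, b)) ha
  have h2 : w = 0 := by simpa [← he] using h1
  exact ⟨h2, by rw [← h a ha, h2, map_zero]⟩

theorem d2_tr {y z z' : X} {a b : E2} (h : H.pt y a ≠ H.pt z b) (h' : H.pt z b ≠ L.em z') (w : E2) :
    d2 (H.G y z) (a, b) w = d2 (H.G y z') (a, H.tr z z' b) (fderiv ℝ (H.tr z z') b w) := by
  have h1 : d2 (H.G y z) (a, b) = _ := (((has_d2 (p := (a, H.tr z z' b))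
    (H.cd_G (x := y) (y := z') (by rwa [H.pt_tr h']))).comp b (H.has_tr h')).congr_of_eventuallyEq
    ((H.ev_ne z h').mono fun v hv => by simp only [Function.comp, G, H.pt_tr hv])).fderiv
  rw [h1]
  rfl

theorem d1_d2' {y z : X} {a b : E2} (h : H.pt y a ≠ H.pt z b) :
    d1 (H.G y z) (a, b) = d2 (H.G z y) (b, a) :=
  Filter.EventuallyEq.fderiv_eq ((H.ev_ne y h).mono fun _ hv => H.symm hv)

theorem blow (hp : ∀ c, IsCompact {p : B × B | p.1 ≠ p.2 ∧ c ≤ D p.1 p.2}) {y : X}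
    {V W : E2 → E2} {f g : E2 → ℝ} (hV : ContDiff ℝ ∞ V) (hW : ContDiff ℝ ∞ W) (hf : Continuous f)
    (hg : Continuous g) (h : ∀ a b, H.pt y a ≠ H.pt y b →
      d1 (H.G y y) (a, b) (V a) + d2 (H.G y y) (a, b) (W b) = f a + g b) (a : E2) : V a = W a := by
  by_contra hne
  have c1 : ContDiff ℝ 1 fun p : E2 × E2 => (V p.1, W p.2) :=
    (((hV.comp contDiff_fst).prodMk (hW.comp contDiff_snd))).of_le (le_inf' 1)
  obtain ⟨α, h0, ε, hε, hα⟩ :=
    (c1.contDiffAt (x := (a, a))).exists_forall_mem_closedBall_exists_eq_forall_mem_Ioo_hasDerivAt₀ 0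
  have hI : Ioo (0 - ε) (0 + ε) ∈ 𝓝 (0 : ℝ) := Ioo_mem_nhds (by linarith) (by linarith)
  have d0 := hα 0 (mem_of_mem_nhds hI)
  have e1 : ∀ᶠ t in 𝓝[≠] (0 : ℝ), (α t).1 - (α t).2 ≠ (α 0).1 - (α 0).2 :=
    (((ContinuousLinearMap.fst ℝ E2 E2).hasFDerivAt.comp_hasDerivAt 0 d0).sub
      ((ContinuousLinearMap.snd ℝ E2 E2).hasFDerivAt.comp_hasDerivAt 0 d0)).eventually_ne
      (by simpa [h0, sub_eq_zero] using hne)
  have e2 : ∀ᶠ t in 𝓝 (0 : ℝ), ‖f (α t).1 + g (α t).2‖ < ‖f (α 0).1 + g (α 0).2‖ + 1 :=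
    (((hf.comp continuous_fst).add (hg.comp continuous_snd)).norm.continuousAt.comp
      d0.continuousAt).eventually (gt_mem_nhds (lt_add_one _))
  set M := ‖f (α 0).1 + g (α 0).2‖ + 1
  have e3 := (e1.filter_mono (nhdsGT_le_nhdsNE 0)).and
    ((e2.and (show ∀ᶠ t in 𝓝 (0 : ℝ), t ∈ Ioo (0 - ε) (0 + ε) from hI)).filter_mono
      nhdsWithin_le_nhds)
  obtain ⟨s, hs, e4⟩ := mem_nhdsGT_iff_exists_Ioc_subset.1 e3
  have ne : ∀ t ∈ Ioc 0 s, H.pt y (α t).1 ≠ H.pt y (α t).2 := fun t ht e =>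
    (e4 ht).1 (by rw [H.pt_inj y e, h0]; simp)
  have dd : ∀ t ∈ Ioc 0 s, HasDerivWithinAt (fun t => H.G y y (α t)) (f (α t).1 + g (α t).2)
      (Ioc 0 s) t := fun t ht => by
    have h1 := dfa (H.cd_G (ne t ht))
    have h2 := h1.hasFDerivAt.comp_hasDerivAt t (hα t (e4 ht).2.2)
    have e : f (α t).1 + g (α t).2 = fderiv ℝ (H.G y y) (α t) (V (α t).1, W (α t).2) := by
      rw [← h _ _ (ne t ht), d1_eq h1, d2_eq h1]
      simp [← map_add]
    rw [e]
    exact h2.hasDerivWithinAt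
  have mem : ∀ t ∈ Ioc 0 s, (H.pt y (α t).1, H.pt y (α t).2) ∈
      {p : B × B | p.1 ≠ p.2 ∧ H.G y y (α s) - M * s ≤ D p.1 p.2} := fun t ht => by
    have h1 := (convex_Ioc 0 s).norm_image_sub_le_of_norm_hasDerivWithin_le dd
      (fun t ht => (e4 ht).2.1.le) ht ⟨hs, le_rfl⟩
    have h2 : ‖s - t‖ ≤ s := by
      rw [Real.norm_of_nonneg (by linarith [ht.2])]; linarith [ht.1]
    have h3 : 0 ≤ M := by positivity
    have h4 := (le_abs_self _).trans (h1.trans (mul_le_mul_of_nonneg_left h2 h3))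
    exact ⟨ne t ht, by simp only [G] at h4 ⊢; linarith⟩
  have t1 : Tendsto (fun t => (H.pt y (α t).1, H.pt y (α t).2)) (𝓝[>] 0)
      (𝓝 (H.pt y (α 0).1, H.pt y (α 0).2)) :=
    ((((H.pt_cont' y).comp continuous_fst).prodMk
      ((H.pt_cont' y).comp continuous_snd)).continuousAt.comp d0.continuousAt).tendsto.mono_left
      nhdsWithin_le_nhds
  exact ((hp _).isClosed.mem_of_tendsto t1
    (Eventually.mono (Ioc_mem_nhdsGT hs) mem)).1 (by rw [h0])

/-- Killing pairs in the affine charts -/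
structure AK (W : X → E2 → E2) (f : B → ℝ) : Prop where
  sm : ∀ z, ContDiff ℝ ∞ (W z)
  smf : ∀ z, ContDiff ℝ ∞ fun b => f (H.pt z b)
  kill : ∀ y z a b, H.pt y a ≠ H.pt z b →
    d1 (H.G y z) (a, b) (W y a) + d2 (H.G y z) (a, b) (W z b) = f (H.pt y a) + f (H.pt z b)

theorem exists_ak (hp : ∀ c, IsCompact {p : B × B | p.1 ≠ p.2 ∧ c ≤ D p.1 p.2}) :
    ∃ (x : X) (T : E2 →L[ℝ] E2) (W : X → E2 → E2) (f : B → ℝ), H.AK W f ∧
      (∃ (b : Module.Basis (Fin Dim.m) ℝ E2) (r : Fin Dim.m → ℝ), (∀ i, 0 < r i) ∧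
        ∀ i, T (b i) = r i • b i) ∧ (∀ a, W (L.flip x) a = T a) ∧ W x 0 = 0 := by
  obtain ⟨x, T, f, hf, hb, ⟨c₀, h0⟩, h⟩ := H.exists_pair
  set y := L.flip x
  choose w c h using h
  have tr : ∀ z z' b, H.pt z b ≠ L.em z' → w z' (H.tr z z' b) = fderiv ℝ (H.tr z z') b (w z b) ∧
      c z' (H.tr z z' b) = c z b := fun z z' b hb => by
    have := H.uniq (y := y) (z := z') (b := H.tr z z' b)
      (w := w z' (H.tr z z' b) - fderiv ℝ (H.tr z z') b (w z b))
      (c := c z' (H.tr z z' b) - c z b) fun a ha => by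
        have ha' : H.pt y a ≠ H.pt z b := by rwa [H.pt_tr hb] at ha
        have e : H.mo y T f z' (a, H.tr z z' b) = H.mo y T f z (a, b) := by
          simp only [mo, d1, G, H.pt_tr hb]
        rw [map_sub, ← H.d2_tr ha' hb, ← h _ _ a ha, ← h _ _ a ha', e]
        ring
    exact ⟨sub_eq_zero.1 this.1, sub_eq_zero.1 this.2⟩
  have cw : ∀ z, ContDiff ℝ ∞ (w z) := fun z => contDiff_iff_contDiffAt.2 fun b => by
    obtain ⟨a, ha⟩ := H.ex_ne y (H.pt z b)
    refine (((H.nd (p := (a, b)) ha).contDiffAt_map_inverse.comp b (cd_sl2 (p := (a, b))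
      (cd_d2 (cd_d1 (H.cd_G ha))))).clm_apply (cd_sl2 (p := (a, b))
      (cd_d1 (H.cd_mo T.contDiff hf ha)))).neg.congr_of_eventuallyEq ?_
    filter_upwards [H.ev_ne z ha.symm] with v hv
    have h1 := ((has_d1 (p := (a, v)) (H.cd_mo T.contDiff hf hv.symm)).add
      (has_d12 (p := (a, v)) (H.cd_G hv.symm) (w z v))).unique
      ((hasFDerivAt_const (c z v) a).congr_of_eventuallyEq ((H.ev_ne y hv.symm).mono (h z v)))
    obtain ⟨e, he⟩ := H.nd (p := (a, v)) hv.symm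
    show w z v = -(d2 (d1 (H.G y z)) (a, v)).inverse (d1 (H.mo y T f z) (a, v))
    rw [eq_neg_of_add_eq_zero_left h1, ← he]
    simp
  have cc : ∀ z, ContDiff ℝ ∞ (c z) := fun z => contDiff_iff_contDiffAt.2 fun b => by
    obtain ⟨a, ha⟩ := H.ex_ne y (H.pt z b)
    refine ((cd_sl2 (p := (a, b)) (H.cd_mo T.contDiff hf ha)).add ((cd_sl2 (p := (a, b))
      (cd_d2 (H.cd_G ha))).clm_apply (cw z).contDiffAt)).congr_of_eventuallyEq ?_
    filter_upwards [H.ev_ne z ha.symm] with v hv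
    exact (h z v a hv.symm).symm
  have h' : ∀ z a b, H.pt y a ≠ H.pt z b → d1 (H.G y z) (a, b) (T a) +
      d2 (H.G y z) (a, b) (w z b) = f a + c z b := fun z a b hab => by
    have := h z b a hab
    simp only [mo] at this
    linarith
  have wy := H.blow hp T.contDiff (cw y) hf.continuous (cc y).continuous (h' y)
  have κ : ∀ a, f a = c y a + (f 0 - c y 0) := fun a => by
    by_cases ha : a = 0
    · rw [ha]; ring
    have n1 : H.pt y a ≠ H.pt y 0 := fun e => ha (H.pt_inj y e)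
    have e1 := h' y a 0 n1
    have e2 := h' y 0 a n1.symm
    rw [H.d1_d2' n1, ← wy] at e1
    rw [H.d1_d2' n1.symm, ← wy] at e2
    linarith
  choose fr hfr using H824.exists_ep L
  have cf : ∀ z b, c (fr (H.pt z b)) 0 = c z b := fun z b => by
    have := (tr z (fr (H.pt z b)) b (by rw [← hfr (H.pt z b)]; simpa [hfr] using
      (L.em_ne_ep (fr (H.pt z b))).symm)).2
    rwa [Hy.tr, ← hfr (H.pt z b), hfr, ← hfr (H.pt z b), hfr, show ch L D (fr (H.pt z b))
      (H.pt z b) = 0 by rw [← ch_ep (L := L) (D := D) (fr (H.pt z b)), hfr]] at this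
  have key : ∀ y' z a b, H.pt y' a ≠ H.pt z b → H.pt y' a ≠ L.em y →
      d1 (H.G y' z) (a, b) (w y' a) + d2 (H.G y' z) (a, b) (w z b) =
        c y' a + c z b + (f 0 - c y 0) := fun y' z a b h1 h2 => by
    have h3 : H.pt y (H.tr y' y a) ≠ H.pt z b := by rwa [H.pt_tr h2]
    have e : d2 (H.G y' z) (a, b) = d2 (H.G y z) (H.tr y' y a, b) := by
      simp only [d2, G, H.pt_tr h2]
    rw [H.d1_d2' h1, H.d2_tr h1.symm h2, ← (tr y' y a h2).1, ← H.d1_d2' h3, ← wy, e, h' _ _ _ h3,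
      κ, (tr y' y a h2).2]
    ring
  have wx := H.uniq (y := y) (z := x) (b := 0) (w := w x 0) (c := c x 0 - c₀) fun a ha => by
    rw [← h x 0 a ha, h0]
    ring
  refine ⟨x, T, w, fun ζ => c (fr ζ) 0 + (f 0 - c y 0) / 2,
    ⟨cw, fun z => ?_, fun y' z a b hab => ?_⟩, hb, fun a => (wy a).symm, wx.1⟩
  · simp only [cf]
    exact (cc z).add contDiff_const
  · rw [cf, cf]
    by_cases h2 : H.pt y' a = L.em y
    · have := key z y' b a hab.symm (h2 ▸ hab.symm)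
      rw [H.d1_d2' hab.symm] at this
      rw [H.d1_d2' hab]
      linarith
    · rw [key y' z a b hab h2]
      ring

end Hy

end Vale.Agent.P207Z.K
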