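import Vale.Agent.P207Z.SM.K.Cal
import Vale.Agent.P207Z.MET.Main

/-!
# P207, smooth case: the hyperbolic part of a linear map preserves invariant functions formally
-/

set_option linter.all false

open Set Filter Topology Metric Asymptotics MeasureTheory
open scoped ContDiff

noncomputable section

namespace Vale.Agent.P207Z.K

open Vale.Agent.P207.N3

variable {E G W : Type} [NormedAddCommGroup E] [NormedSpace ℝ E] [NormedAddCommGroup G]
  [NormedSpace ℝ G] [NormedAddCommGroup W] [NormedSpace ℝ W]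

/-- splitting by the rates of growth -/
structure Spl (A : ℤ → W →L[ℝ] W) {ι : Type} [Fintype ι] (P : ι → W →L[ℝ] W) (lam : ι → ℝ) :
    Prop where
  sum : ∀ w, ∑ i, P i w = w
  comm : ∀ n i w, A n (P i w) = P i (A n w)
  bd : ∀ i ε, 0 < ε → ∃ C, ∀ (n : ℤ) w,
    ‖A n (P i w)‖ ≤ C * Real.exp (n * lam i + ε * |(n : ℝ)|) * ‖w‖

theorem exists_spl {V : Type} [NormedAddCommGroup V] [InnerProductSpace ℝ V]
    [FiniteDimensional ℝ V] {A : ℤ → V →L[ℝ] V} (h0 : A 0 = 1)
    (add : ∀ m n, A (m + n) = A m * A n) : ∃ (d : ℕ) (P : Fin d → V →L[ℝ] V) (lam : Fin d → ℝ),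
    Spl A P lam ∧ ∀ i j, P i * P j = if i = j then P i else 0 := by
  have hb : ∀ T : V →L[ℝ] V, ‖T‖ ≤ ‖A 1‖ + ‖A (-1)‖ → ‖T‖ ≤ Real.exp (‖A 1‖ + ‖A (-1)‖) :=
    fun T h => h.trans (by linarith [Real.add_one_le_exp (‖A 1‖ + ‖A (-1)‖)])
  have hc : MET.Coc (X := Unit) (fun _ x => x) (fun n _ => A n) (‖A 1‖ + ‖A (-1)‖) :=
    MET.Coc.of_one (by positivity) (fun m n _ => add m n)
      (fun _ => hb _ (by linarith [norm_nonneg (A (-1))]))
      fun _ => hb _ (by linarith [norm_nonneg (A 1)])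
  obtain ⟨P, lam, -, -, -, -, h⟩ := MET.met (μ := Measure.dirac ()) ⟨fun _ => rfl, fun _ _ _ => rfl⟩
    (fun _ => MeasurePreserving.id _) hc fun _ => measurable_const
  rw [ae_dirac_eq, eventually_pure] at h
  have g := h 0
  refine ⟨_, fun i => P i (), fun i => lam i (), ⟨fun w => ?_, fun n i w => ?_,
    fun i ε hε => ?_⟩, fun i j => ?_⟩
  · rw [← ContinuousLinearMap.sum_apply, g.sum, h0]; rfl
  · exact congrArg (fun T : V →L[ℝ] V => T w) (g.eqv n i)
  · obtain ⟨C, hC⟩ := g.bd i ε hε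
    refine ⟨C, fun n w => ?_⟩
    simpa using (A n * P i ()).le_of_opNorm_le (hC 0 n) w
  · split_ifs with h
    · rw [← h, g.idem]
    · exact g.orth i j h

variable {A : ℤ → W →L[ℝ] W} {ι : Type} [Fintype ι] {P : ι → W →L[ℝ] W} {lam : ι → ℝ}

theorem Spl.weight (h : Spl A P lam) {k : ℕ} (M : ContinuousMultilinearMap ℝ (fun _ : Fin k => W) ℝ)
    (hM : ∀ n, (M.compContinuousLinearMap fun _ => A n) = M) (t : ℝ) :
    (M.compContinuousLinearMap fun _ => ∑ i, Real.exp (t * lam i) • P i) = M := by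
  classical
  ext w
  have e : M w = M fun j => ∑ i, P i (w j) := by simp only [h.sum]
  simp only [ContinuousMultilinearMap.compContinuousLinearMap_apply, ContinuousLinearMap.sum_apply,
    ContinuousLinearMap.smul_apply]
  rw [e, M.map_sum, M.map_sum]
  refine Finset.sum_congr rfl fun r _ => ?_
  rw [M.map_smul_univ, ← Real.exp_sum, ← Finset.mul_sum]
  set s := ∑ j, lam (r j) with hs
  by_cases h0 : s = 0
  · simp [h0]
  suffices M (fun j => P (r j) (w j)) = 0 by simp [this]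
  have hε : 0 < |s| / (2 * (k + 1)) := by have := abs_pos.2 h0; positivity
  choose C hC using fun i => h.bd i _ hε
  have key : ∀ n : ℤ, ‖M fun j => P (r j) (w j)‖ ≤ ‖M‖ * (∏ j, C (r j) * ‖w j‖) *
      Real.exp (n * s + k * (|s| / (2 * (k + 1)) * |(n : ℝ)|)) := fun n => by
    have h1 := M.le_opNorm_mul_prod_of_le fun j => hC (r j) n (w j)
    have h2 : M (fun j => A n (P (r j) (w j))) = M fun j => P (r j) (w j) := by
      conv_rhs => rw [← hM n]
      rfl
    rw [h2] at h1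
    refine h1.trans_eq ?_
    rw [mul_assoc, hs, Finset.mul_sum, show (k : ℝ) * (|s| / (2 * (k + 1)) * |(n : ℝ)|) =
      ∑ _j : Fin k, |s| / (2 * (k + 1)) * |(n : ℝ)| by simp, ← Finset.sum_add_distrib,
      Real.exp_sum, ← Finset.prod_mul_distrib]
    congr 1
    exact Finset.prod_congr rfl fun j _ => by ring
  have t1 : Tendsto (fun n : ℕ => ‖M‖ * (∏ j, C (r j) * ‖w j‖) * Real.exp (n * (-|s| +
      k * (|s| / (2 * (k + 1)))))) atTop (𝓝 (‖M‖ * (∏ j, C (r j) * ‖w j‖) * 0)) := by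
    refine (Real.tendsto_exp_atBot.comp
      (tendsto_natCast_atTop_atTop.atTop_mul_const_of_neg ?_)).const_mul _
    have : (k : ℝ) * (|s| / (2 * (k + 1))) < |s| := by
      rw [← mul_div_assoc, div_lt_iff₀ (by positivity)]
      nlinarith [abs_pos.2 h0, Nat.cast_nonneg (α := ℝ) k]
    linarith
  rw [mul_zero] at t1
  refine norm_le_zero_iff.1 (ge_of_tendsto' t1 fun n => ?_)
  rcases lt_or_gt_of_ne h0 with h1 | h1
  · refine (key n).trans_eq ?_
    congr 2
    simp only [Int.cast_natCast, Nat.abs_cast]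
    rw [abs_of_neg h1]; ring
  · refine (key (-n)).trans_eq ?_
    congr 2
    simp only [Int.cast_neg, Int.cast_natCast, abs_neg, Nat.abs_cast]
    rw [abs_of_pos h1]; ring

theorem Spl.flat0 (h : Spl A P lam) {Ω : Set W} (hΩ : IsOpen Ω) (h0 : (0 : W) ∈ Ω) {g : W → ℝ}
    (hg : ∀ p ∈ Ω, ContDiffAt ℝ ∞ g p) (hA : ∀ n, ∀ p ∈ Ω, g (A n p) = g p) :
    Flat (fun w => ‖w - 0‖) (fun w => fderiv ℝ g w ((∑ i, lam i • P i) w)) 0 := by
  set Ex : ℝ → W →L[ℝ] W := fun t => ∑ i, Real.exp (t * lam i) • P i with hEx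
  have c1 : ContDiff ℝ ∞ fun p : ℝ × W => Ex p.1 p.2 := by
    refine ContDiff.clm_apply ?_ contDiff_snd
    simp only [hEx]
    fun_prop
  have e0 : ∀ w, Ex 0 w = w := fun w => by simp [hEx, h.sum]
  have hS : IsOpen {p : ℝ × W | p.2 ∈ Ω ∧ Ex p.1 p.2 ∈ Ω} :=
    (hΩ.preimage continuous_snd).inter (hΩ.preimage c1.continuous)
  have c2 : ∀ p ∈ {p : ℝ × W | p.2 ∈ Ω ∧ Ex p.1 p.2 ∈ Ω},
      ContDiffAt ℝ ∞ (fun p : ℝ × W => g (Ex p.1 p.2) - g p.2) p := fun p hp =>
    ((hg _ hp.2).comp p c1.contDiffAt).sub ((hg _ hp.1).comp p contDiffAt_snd)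
  have j : JC (fun t w => g (Ex t w) - g w) _ :=
    JC.of_uncurry hS fun p hp => (c2 p hp).contDiffWithinAt
  have m0 : ((0, 0) : ℝ × W) ∈ {p : ℝ × W | p.2 ∈ Ω ∧ Ex p.1 p.2 ∈ Ω} := ⟨h0, by simpa using h0⟩
  have g0 : ∀ T : W →L[ℝ] W, ContDiffAt ℝ ∞ g (T 0) := fun T => by simpa using hg 0 h0
  have fl : Flat (fun p : ℝ × W => ‖p.2‖) (fun p : ℝ × W => g (Ex p.1 p.2) - g p.2) (0, 0) :=
    fun N => flat_of_jc m0 N j (Eventually.of_forall fun t k => by
      have h1 : ContDiffAt ℝ k (g ∘ Ex t) 0 :=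
        ((g0 _).comp 0 (Ex t).contDiff.contDiffAt).of_le (le_inf' k)
      refine (iter_sub h1 ((hg 0 h0).of_le (le_inf' k))).trans ?_
      rw [itf_comp_clm _ (g0 _), map_zero, h.weight _ (fun n => ?_), sub_self]
      have := itf_comp_clm (A n) (g0 _) k
      rw [map_zero] at this
      rw [← this]
      exact (Filter.EventuallyEq.iteratedFDeriv ℝ (Eventually.mono (hΩ.mem_nhds h0)
        fun p hp => hA n p hp) k).self_of_nhds)
  intro N
  have h1 := (fl.d1 (c2 _ m0) N).comp_tendsto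
    (show Tendsto (fun w : W => ((0, w) : ℝ × W)) (𝓝 0) (𝓝 (0, 0)) from
      Continuous.tendsto' (by fun_prop) _ _ rfl)
  simp only [sub_zero]
  refine IsBigO.trans (IsBigO.of_bound 1 ?_) h1
  filter_upwards [hΩ.mem_nhds h0] with w hw
  have h2 : HasDerivAt (fun t => Ex t w) ((∑ i, lam i • P i) w) 0 := by
    simp only [hEx, ContinuousLinearMap.sum_apply, ContinuousLinearMap.smul_apply]
    refine HasDerivAt.fun_sum fun i _ => HasDerivAt.smul_const ?_ _
    simpa using (hasDerivAt_mul_const (x := (0 : ℝ)) (lam i)).exp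
  have h3 := ((hg w hw).differentiableAt (by simp)).hasFDerivAt
  rw [← e0 w] at h3
  have h4 := ((h3.comp_hasDerivAt 0 h2).sub_const (g w)).hasFDerivAt.fderiv
  rw [e0] at h4
  have h5 : d1 (fun p : ℝ × W => g (Ex p.1 p.2) - g p.2) (0, w) = _ := h4
  simp [h5]

theorem Spl.flat {A : ℤ → E × G →L[ℝ] E × G} {P : ι → E × G →L[ℝ] E × G} (h : Spl A P lam)
    {Ω : Set (E × G)} (hΩ : IsOpen Ω) (h0 : ∀ a, (a, 0) ∈ Ω) {g : E × G → ℝ}
    (hg : ∀ p ∈ Ω, ContDiffAt ℝ ∞ g p) (hA : ∀ n, ∀ p ∈ Ω, A n p ∈ Ω ∧ g (A n p) = g p)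
    {M r : ℝ} (hM : ∀ n : ℕ, ‖A n‖ ≤ M ^ n) (hr0 : 0 ≤ r) (hr : r < 1)
    (hc : ∀ a, ∃ C, ∀ᶠ n : ℕ in atTop, ‖A n (a, 0)‖ ≤ C * r ^ n) (a : E) :
    Flat (fun p : E × G => ‖p.2‖) (fun w => fderiv ℝ g w ((∑ i, lam i • P i) w)) (a, 0) := by
  set F := fun w => fderiv ℝ g w ((∑ i, lam i • P i) w) with hF
  have cF : ∀ p ∈ Ω, ContDiffAt ℝ ∞ F p := fun p hp =>
    ((hg p hp).fderiv_right (m := ∞) (by simp)).clm_apply (∑ i, lam i • P i).contDiff.contDiffAt
  have f0 := h.flat0 hΩ (h0 0) hg fun n p hp => (hA n p hp).2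
  have iF : ∀ n, ∀ p ∈ Ω, F (A n p) = F p := fun n p hp => by
    have h1 := (((hg _ (hA n p hp).1).differentiableAt (by simp)).hasFDerivAt.comp p
      (A n).hasFDerivAt).congr_of_eventuallyEq (Eventually.mono (hΩ.mem_nhds hp)
        fun q hq => (hA n q hq).2.symm)
    simp only [hF, h1.fderiv, ContinuousLinearMap.comp_apply, ContinuousLinearMap.sum_apply,
      ContinuousLinearMap.smul_apply, map_sum, map_smul, h.comm]
  have M0 : 0 ≤ M := by simpa using (norm_nonneg _).trans (hM 1)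
  have z : ∀ a k, iteratedFDeriv ℝ k F (a, 0) = 0 := fun a k => by
    obtain ⟨C, hC⟩ := hc a
    obtain ⟨N, hN⟩ := (((tendsto_pow_atTop_nhds_zero_of_lt_one hr0 hr).const_mul
      (M ^ k)).eventually (gt_mem_nhds (show M ^ k * 0 < 1 by simp))).exists
    obtain ⟨C', hC0, hC'⟩ := (Flat.itf (fun _ => norm_nonneg _) (by simp) (nsub_l 0) k f0
      (cF 0 (h0 0)) N).exists_pos
    have t2 := (tendsto_pow_atTop_nhds_zero_of_lt_one hr0 hr).const_mul C
    rw [mul_zero] at t2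
    have t3 : Tendsto (fun n : ℕ => A n (a, 0)) atTop (𝓝 0) :=
      squeeze_zero_norm' hC t2
    have t1 := (tendsto_pow_atTop_nhds_zero_of_lt_one (by positivity) hN).const_mul (C' * C ^ N)
    rw [mul_zero] at t1
    refine norm_le_zero_iff.1 (ge_of_tendsto t1 ?_)
    filter_upwards [hC, t3.eventually hC'.bound] with n h1 h2
    have h3 := itf_comp_clm (A n) (cF _ (hA n _ (h0 a)).1) k
    have e3 : F ∘ A n =ᶠ[𝓝 (a, 0)] F :=
      Eventually.mono (hΩ.mem_nhds (h0 a)) fun p hp => iF n p hp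
    rw [(e3.iteratedFDeriv ℝ k).self_of_nhds] at h3
    have h4 := (iteratedFDeriv ℝ k F (A n (a, 0))).norm_compContinuousLinearMap_le fun _ => A n
    rw [Finset.prod_const, Finset.card_univ, Fintype.card_fin, ← h3] at h4
    rw [sub_zero, Real.norm_of_nonneg (by positivity)] at h2
    have h5 := hM n
    calc _ ≤ C' * (C * r ^ n) ^ N * (M ^ n) ^ k := by
          refine h4.trans (mul_le_mul (h2.trans ?_) (by gcongr) (by positivity) ?_)
          · gcongr
          · exact mul_nonneg hC0.le (pow_nonneg ((norm_nonneg _).trans h1) _)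
      _ = _ := by
          rw [mul_pow, mul_pow, ← pow_mul, ← pow_mul, ← pow_mul, ← pow_mul, mul_comm n k,
            mul_comm n N]
          ring
  have j : JC (fun a b => F (a, b)) Ω :=
    JC.of_uncurry hΩ fun p hp => (cF p hp).contDiffWithinAt
  refine fun N => flat_of_jc (h0 a) N j (Eventually.of_forall fun v k => ?_)
  have h1 : ContDiffAt ℝ ∞ (fun p => F (p + (v, 0))) (ContinuousLinearMap.inr ℝ E G 0) :=
    ContDiffAt.comp (g := F) _ (by simpa using cF _ (h0 v)) (by fun_prop)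
  have h2 := itf_comp_clm _ h1 k
  rw [iteratedFDeriv_comp_add_right, map_zero, zero_add, z] at h2
  rw [show (fun b => F (v, b)) = (fun p => F (p + (v, 0))) ∘ ContinuousLinearMap.inr ℝ E G from
    funext fun b => by simp, h2]
  ext m
  simp

/-- the product of two splittings -/
theorem Spl.prod {κ : Type} [Fintype κ] {A : ℤ → E →L[ℝ] E} {P : ι → E →L[ℝ] E}
    {A' : ℤ → G →L[ℝ] G} {P' : κ → G →L[ℝ] G} {lam' : κ → ℝ} (h : Spl A P lam)
    (h' : Spl A' P' lam') : Spl (fun n => (A n).prodMap (A' n))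
      (Sum.elim (fun i => (P i).prodMap 0) fun j => (0 : E →L[ℝ] E).prodMap (P' j))
      (Sum.elim lam lam') := by
  refine ⟨fun w => ?_, fun n i w => ?_, fun i ε hε => ?_⟩
  · rw [Fintype.sum_sum_type]
    ext <;> simp [Prod.fst_sum, Prod.snd_sum, h.sum, h'.sum]
  · rcases i with i | i <;> simp [h.comm, h'.comm, Prod.map]
  · rcases i with i | i
    · obtain ⟨C, hC⟩ := h.bd i ε hε
      refine ⟨|C|, fun n w => ?_⟩
      simp only [Sum.elim_inl, ContinuousLinearMap.coe_prodMap', Prod.map, Prod.norm_def,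
        ContinuousLinearMap.zero_apply, map_zero, norm_zero]
      refine max_le ((hC n w.1).trans ?_) (by positivity)
      gcongr
      exacts [le_abs_self C, le_max_left _ _]
    · obtain ⟨C, hC⟩ := h'.bd i ε hε
      refine ⟨|C|, fun n w => ?_⟩
      simp only [Sum.elim_inr, ContinuousLinearMap.coe_prodMap', Prod.map, Prod.norm_def,
        ContinuousLinearMap.zero_apply, map_zero, norm_zero]
      refine max_le (by positivity) ((hC n w.2).trans ?_)
      gcongr
      exacts [le_abs_self C, le_max_right _ _]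

/-- a contraction has negative exponents -/
theorem Spl.neg (h : Spl A P lam) (inv : ∀ (n : ℕ) w, A n (A (-n) w) = w) {C r : ℝ} (hr0 : 0 < r)
    (hr : r < 1) (hc : ∀ᶠ n : ℕ in atTop, ‖A n‖ ≤ C * r ^ n) {i : ι} {w : W} (hw : P i w ≠ 0) :
    lam i < 0 := by
  by_contra hl
  have hl' := not_lt.1 hl
  have hε : 0 < -Real.log r / 2 := by linarith [Real.log_neg hr0 hr]
  obtain ⟨C', hC'⟩ := h.bd i _ hε
  have t1 : Tendsto (fun n : ℕ => C * |C'| * ‖w‖ * Real.exp (n * (Real.log r / 2))) atTop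
      (𝓝 (C * |C'| * ‖w‖ * 0)) := (Real.tendsto_exp_atBot.comp
    (tendsto_natCast_atTop_atTop.atTop_mul_const_of_neg (by linarith))).const_mul _
  rw [mul_zero] at t1
  refine hw (norm_le_zero_iff.1 (ge_of_tendsto t1 ?_))
  filter_upwards [hc] with n hn
  rw [← inv n (P i w)]
  refine ((A n).le_of_opNorm_le hn _).trans ?_
  have h1 : ‖A (-n) (P i w)‖ ≤ |C'| * Real.exp (n * (-Real.log r / 2)) * ‖w‖ := by
    refine (hC' (-n) w).trans ?_
    simp only [Int.cast_neg, Int.cast_natCast, abs_neg, Nat.abs_cast]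
    gcongr
    · exact le_abs_self _
    · nlinarith [Nat.cast_nonneg (α := ℝ) n]
  refine (mul_le_mul_of_nonneg_left h1 ((norm_nonneg _).trans hn)).trans_eq ?_
  rw [show r ^ n = Real.exp (n * Real.log r) by rw [Real.exp_nat_mul, Real.exp_log hr0],
    show (n : ℝ) * (Real.log r / 2) = n * Real.log r + n * (-Real.log r / 2) by ring, Real.exp_add]
  ring

end Vale.Agent.P207Z.K
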