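import Vale.Agent.P207Z.SM.K.Ext
import Vale.Agent.P207Z.SM.K.Spl
import Vale.Agent.P207.N4.H147.AxD

/-!
# P207, smooth case: the formal Killing pair of a closed orbit
-/

set_option linter.all false

open Set Filter Topology Metric Asymptotics
open scoped ContDiff

noncomputable section

namespace Vale.Agent.P207Z.K

open Vale.Agent.P207.N3 Vale.Agent.P207.N4 Vale.Agent.P207.N4.H391
open Vale.Agent.P207.N4.Ten (mem_ball0 dm_self fderiv_tau_self fderiv_tau_rot_left)

variable [Dim]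

theorem exists_eig {d : ℕ} {P : Fin d → E2 →L[ℝ] E2} {lam : Fin d → ℝ}
    (hs : ∀ w, ∑ i, P i w = w) (ho : ∀ i j, P i * P j = if i = j then P i else 0)
    (hl : ∀ i w, P i w ≠ 0 → 0 < lam i) :
    ∃ (b : Module.Basis (Fin Dim.m) ℝ E2) (r : Fin Dim.m → ℝ), (∀ i, 0 < r i) ∧
      ∀ i, (∑ j, lam j • P j) (b i) = r i • b i := by
  obtain ⟨s, h1, h2, h3⟩ := exists_linearIndependent ℝ {v : E2 | ∃ i w, v = P i w}
  have h4 : ⊤ ≤ Submodule.span ℝ (range ((↑) : s → E2)) := fun w _ => by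
    rw [Subtype.range_coe, h2, ← hs w]
    exact Submodule.sum_mem _ fun i _ => Submodule.subset_span ⟨i, w, rfl⟩
  set b := Module.Basis.mk h3 h4
  set e := (EuclideanSpace.basisFun (Fin Dim.m) ℝ).toBasis.indexEquiv b
  have h5 : ∀ i, ∃ r : ℝ, 0 < r ∧ (∑ j, lam j • P j) (b.reindex e.symm i) = r • b.reindex e.symm i :=
    fun i => by
      have h6 := (b.reindex e.symm).ne_zero i
      have h7 : b.reindex e.symm i = (e i : E2) := by simp [b]
      obtain ⟨k, w, hk⟩ := h1 (e i).2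
      rw [h7, hk] at h6 ⊢
      refine ⟨lam k, hl k w h6, ?_⟩
      rw [ContinuousLinearMap.sum_apply, Finset.sum_eq_single k (fun j _ hj => ?_) (by simp)]
      · have := congrArg (fun T : E2 →L[ℝ] E2 => T w) (ho k k)
        simp only [if_true, ContinuousLinearMap.mul_apply] at this
        simp [this]
      · have := congrArg (fun T : E2 →L[ℝ] E2 => T w) (ho j k)
        simp only [if_neg hj, ContinuousLinearMap.mul_apply] at this
        simp [this]
  choose r h6 h7 using h5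
  exact ⟨_, r, h6, h7⟩

variable {Γ X B : Type} [Group Γ] [MetricSpace X] [ProperSpace X] [MulAction Γ X]
  [IsIsometricSMul Γ X] [TopologicalSpace B] [CompactSpace B] [T2Space B] [MulAction Γ B]
  [ContinuousConstSMul Γ B] {L : Leaf Γ X B} {D : B → B → ℝ}

theorem lin_rot (a : O2) (x : X) : ‖lin L x (L.rot a x)‖ ≤ 1 := by
  unfold lin
  rw [LinearIsometryEquiv.norm_map, L.flip_rot, fderiv_tau_rot_left rfl a (dm_self mem_ball0),
    fderiv_tau_self mem_ball0]
  exact ContinuousLinearMap.opNorm_le_bound _ zero_le_one fun v => by simp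

namespace Hy

variable (H : Hy L D)
include H

theorem coc {β : Γ} {y : X} (h : β • L.em y = L.em y) (m n : ℤ) :
    lin L y (β ^ (m + n) • y) = lin L y (β ^ m • y) * lin L y (β ^ n • y) := by
  have e : ∀ k : ℤ, L.em y = L.em (β ^ k • y) := fun k => by
    rw [L.em_smul]
    exact (MulAction.mem_stabilizer_iff.1
      (zpow_mem (MulAction.mem_stabilizer_iff.2 h) k)).symm
  rw [H.lin_trans (e n) ((e n).symm.trans (e _)), add_comm, zpow_add, mul_smul, lin_smul _ (e m)]
  rfl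

theorem exists_formal : ∃ (x : X) (T T' : E2 →L[ℝ] E2),
    (∃ (b : Module.Basis (Fin Dim.m) ℝ E2) (r : Fin Dim.m → ℝ), (∀ i, 0 < r i) ∧
      ∀ i, T (b i) = r i • b i) ∧ ∀ a, Flat (fun p : E2 × E2 => ‖p.2‖)
        (fun p => fderiv ℝ (H.nG x) p (T p.1, T' p.2)) (a, 0) := by
  obtain ⟨⟨β, x, l, a, ho⟩⟩ := H147.exists_orb L
  have h1 : β • L.em (L.flip x) = L.em (L.flip x) := by rw [em_flip]; exact H147.Ax.smul_ep ho
  have h2 := H147.Ax.smul_em ho
  set A := fun n : ℤ => lin L (L.flip x) (β ^ n • L.flip x) with hA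
  set A' := fun n : ℤ => lin L x (β ^ n • x) with hA'
  have a0 : A 0 = 1 := by simp only [hA, zpow_zero, one_smul, lin_self]; rfl
  have a0' : A' 0 = 1 := by simp only [hA', zpow_zero, one_smul, lin_self]; rfl
  obtain ⟨d, P, lam, s, o⟩ := exists_spl a0 (H.coc h1)
  obtain ⟨d', P', lam', s', -⟩ := exists_spl a0' (H.coc h2)
  obtain ⟨C, hC⟩ := lin_back (L := L)
  have hr : Real.exp (-L.χ * l) < 1 := Real.exp_lt_one_iff.2 (by nlinarith [L.χ_pos, ho.pos])
  set r := Real.exp (-L.χ * l)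
  have hr0 : 0 < r := Real.exp_pos _
  have hc : ∀ᶠ n : ℕ in atTop, ‖A n‖ ≤ C * r ^ n := by
    filter_upwards [(tendsto_natCast_atTop_atTop.atTop_mul_const ho.pos).eventually_ge_atTop L.t1]
      with n hn
    simp only [hA, zpow_natCast]
    rw [← L.flip_smul, H147.Ax.pow_smul ho, L.flip_φ, L.flip_rot,
      H.lin_trans (L.em_rot (a ^ n) _).symm (L.em_φ _ _).symm]
    have h3 := hC (L.rot (a ^ n) (L.flip x)) _ hn
    rw [show -L.χ * (n * l) = n * (-L.χ * l) by ring, Real.exp_nat_mul] at h3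
    refine (ContinuousLinearMap.opNorm_comp_le _ _).trans ?_
    exact (mul_le_mul h3 (lin_rot (L := L) (a ^ n) (L.flip x)) (norm_nonneg _)
      ((norm_nonneg _).trans h3)).trans_eq (mul_one _)
  have inv : ∀ (n : ℕ) w, A n (A (-n) w) = w := fun n w => by
    have := H.coc h1 n (-n)
    rw [add_neg_cancel] at this
    have e : A 0 = A n * A (-n) := this
    rw [← ContinuousLinearMap.mul_apply, ← e, a0]; rfl
  have em : ∀ {y : X}, β • L.em y = L.em y → ∀ k : ℤ, L.em y = L.em (β ^ k • y) :=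
    fun {y} h k => by
      rw [L.em_smul]
      exact (MulAction.mem_stabilizer_iff.1 (zpow_mem (MulAction.mem_stabilizer_iff.2 h) k)).symm
  have ep : ∀ k : ℤ, L.ep x = L.ep (β ^ k • x) := fun k => by
    rw [← em_flip, ← em_flip, L.flip_smul]; exact em h1 k
  have pw : ∀ n : ℕ, ‖(A n).prodMap (A' n)‖ ≤ ‖(A 1).prodMap (A' 1)‖ ^ n := fun n => by
    induction n with
    | zero =>
      simp only [Nat.cast_zero, a0, a0', pow_zero]
      exact ContinuousLinearMap.opNorm_le_bound _ zero_le_one fun v => by simp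
    | succ n ih =>
      have e : (A (n + 1 : ℕ)).prodMap (A' (n + 1 : ℕ)) =
          (A n).prodMap (A' n) ∘L (A 1).prodMap (A' 1) := by
        simp only [hA, hA', Nat.cast_succ, H.coc h1, H.coc h2]
        rfl
      rw [e, pow_succ]
      exact (ContinuousLinearMap.opNorm_comp_le _ _).trans (by gcongr)
  refine ⟨x, ∑ j, -lam j • P j, ∑ j, -lam' j • P' j, exists_eig s.sum o fun i w hw =>
    neg_pos.2 (s.neg inv hr0 hr hc hw), fun v N => ?_⟩
  have fl := (s.prod s').flat (isOpen_slice H.jc_nG.isOpen x) (H.O1_l x)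
    (fun p hp => H.jc_nG.contDiffAt (p := (x, p)) hp) (fun n p hp => by
      have h3 := (H.O1_same (em h2 n) (ep n)).2 hp
      have h4 := H.nG_same (em h2 n) (ep n) p
      rw [H.nG_smul _ ((H.O1_smul _).1 h3), L.flip_smul] at h4
      rw [H.O1_smul, L.flip_smul] at h3
      exact ⟨h3, h4⟩) pw hr0.le hr (fun v => ⟨C * ‖v‖, hc.mono fun n hn => by
        have := (A n).le_of_opNorm_le hn v
        simpa [mul_right_comm] using this⟩) v N
  refine fl.neg_left.congr_left fun p => ?_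
  rw [← map_neg, Fintype.sum_sum_type]
  congr 1
  ext <;> simp [Prod.fst_sum, Prod.snd_sum]

/-- the pair of a closed orbit solves the Killing equation -/
theorem exists_pair : ∃ (x : X) (T : E2 →L[ℝ] E2) (f : E2 → ℝ), ContDiff ℝ ∞ f ∧
    (∃ (b : Module.Basis (Fin Dim.m) ℝ E2) (r : Fin Dim.m → ℝ), (∀ i, 0 < r i) ∧
      ∀ i, T (b i) = r i • b i) ∧ (∃ c, ∀ a, H.mo (L.flip x) T f x (a, 0) = c) ∧
      ∀ z b, ∃ w c, ∀ a, H.pt (L.flip x) a ≠ H.pt z b →
        H.mo (L.flip x) T f z (a, b) + d2 (H.G (L.flip x) z) (a, b) w = c := by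
  obtain ⟨x, T, T', hb, h⟩ := H.exists_formal
  have c1 : ContDiff ℝ ∞ fun a => d1 (H.G (L.flip x) x) (a, 0) (T a) :=
    contDiff_iff_contDiffAt.2 fun a =>
      (cd_sl1 (p := (a, 0)) (cd_d1 (H.cd_G (H.O1_l x a)))).clm_apply T.contDiff.contDiffAt
  have c2 : ContDiff ℝ ∞ fun b => d2 (H.G (L.flip x) x) (0, b) (T' b) :=
    contDiff_iff_contDiffAt.2 fun b =>
      (cd_sl2 (p := (0, b)) (cd_d2 (H.cd_G (H.O1_r x b)))).clm_apply T'.contDiff.contDiffAt
  refine ⟨x, T, _, c1, hb, ⟨0, fun a => sub_self _⟩,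
    H.ext T.contDiff c1 (em_flip L x).symm T'.contDiff c2 fun a N => (h a N).congr' ?_ .rfl⟩
  filter_upwards [H.ev_Om (p := (a, 0)) (H.O1_l x a)] with p hp
  have h1 : DifferentiableAt ℝ (H.nG x) p := dfa (H.jc_nG.contDiffAt (p := (x, p)) hp)
  have h2 : d1 (H.nG x) p = _ := ((((has_d1 (H.cd_G hp)).sub
    (has_d1 (p := (p.1, 0)) (H.cd_G (H.O1_l x p.1)))).sub_const
      (H.G (L.flip x) x (0, p.2))).add_const (H.G (L.flip x) x (0, 0))).fderiv
  have h3 : d2 (H.nG x) p = _ := ((((has_d2 (H.cd_G hp)).sub_const (H.G (L.flip x) x (p.1, 0))).sub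
    (has_d2 (p := (0, p.2)) (H.cd_G (H.O1_r x p.2)))).add_const (H.G (L.flip x) x (0, 0))).fderiv
  have h4 : fderiv ℝ (H.nG x) p (T p.1, T' p.2) = d1 (H.nG x) p (T p.1) + d2 (H.nG x) p (T' p.2) := by
    rw [d1_eq h1, d2_eq h1]
    simp [← map_add]
  rw [h4, h2, h3]
  simp only [mo, ContinuousLinearMap.sub_apply]
  ring

end Hy

end Vale.Agent.P207Z.K
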